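import Vale.Agent.P100.Blocks

/-!
# P100: the certificates in dimension four

`w = β/(α+β)`, `h = 2/(α+β)`, weight `u^(1-k) v` with `k` affine in `h`. Each range of `(w, h)`
has its own rational parameters; the conditions are polynomials in `(w, h)`.
-/

namespace Vale.Agent.P100.Four

/-- The parameters of one range. -/
structure Par where
  κ : ℝ
  k₀ : ℝ
  d₁ : ℝ
  d₂ : ℝ
  d₃ : ℝ
  d₄ : ℝ
  τ : ℝ
  g₀ : ℝ
  g₁ : ℝ

variable (P : Par) (w h : ℝ)

/-- The exponent deficit `1 - A`. -/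
def kk : ℝ := P.k₀ + P.κ * h

/-- The coefficient on `|a|² a`. -/
noncomputable def c1 : ℝ := -(1 + kk P h) / 2 + P.d₁

/-- The coefficient on `|a|² b`. -/
noncomputable def c2 : ℝ := -1 / 2 + P.d₂

/-- The coefficient on `|b|² a`. -/
noncomputable def c3 : ℝ := -(1 - kk P h) / 2 + P.d₃

/-- The coefficient on `|b|² b`. -/
noncomputable def c4 : ℝ := -1 / 2 + P.d₄

/-- `w (1 - w)` times the coefficient of `s b`. -/
noncomputable def gam : ℝ := (1 - 2 * w) / 2 + P.g₀ + P.g₁ * w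

/-- The `|a|⁴` coefficient. -/
noncomputable def qX : ℝ :=
  c1 P h * (-2 - kk P h) - 3 / 4 * (c1 P h + (-1 - kk P h) / 2) ^ 2

/-- Half the `|a|² (a·b)` coefficient. -/
noncomputable def qR : ℝ :=
  (c1 P h + c2 P * (-1 - kk P h) -
    3 / 2 * (c1 P h + (-1 - kk P h) / 2) * (c2 P + 1 / 2)) / 2

/-- The middle coefficient. -/
noncomputable def qM : ℝ :=
  P.τ - 1 / 4 * ((c2 P + 1 / 2) ^ 2 + (c3 P h + (1 - kk P h) / 2) ^ 2)

/-- Half the `|a|² |b|²` coefficient. -/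
noncomputable def qV : ℝ :=
  (-(c3 P h * kk P h) - ((c2 P + 1 / 2) ^ 2 + (c3 P h + (1 - kk P h) / 2) ^ 2) / 2 - P.τ) / 2

/-- Half the `(a·b) |b|²` coefficient. -/
noncomputable def qW : ℝ :=
  (-c3 P h + c4 P * (1 - kk P h) -
    3 / 2 * (c4 P - 1 / 2) * (c3 P h + (1 - kk P h) / 2)) / 2

/-- The `|b|⁴` coefficient. -/
noncomputable def qZ : ℝ := -2 * c4 P - 3 / 4 * (c4 P - 1 / 2) ^ 2

/-- The lower minor. -/
noncomputable def qInner : ℝ := qX P h * qZ P - qV P h ^ 2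

/-- The determinant. -/
noncomputable def qDet : ℝ :=
  qX P h * qM P h * qZ P + 2 * qR P h * qW P h * qV P h - qX P h * qW P h ^ 2 -
    qZ P * qR P h ^ 2 - qV P h ^ 2 * qM P h

/-- The diagonal coefficient of the `(s, a)` block. -/
noncomputable def qP : ℝ := -(3 / 2) * c1 P h + (1 + kk P h) / 4

/-- The diagonal coefficient of the `(t, b)` block. -/
noncomputable def qQ : ℝ := -(3 / 2) * c4 P + 1 / 4

/-- The `(s, a, b)` determinant times `w² (1 - w)²` at `p = (1 - w + h)/w`. -/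
noncomputable def qS : ℝ :=
  qP P h * ((-c3 P h * w ^ 2 * (1 - w) + gam P w * (1 - w + h)) * (1 - w)) -
    ((-(1 / 2) * c2 P - 1 / 4) * (w * (1 - w)) - (1 - w + h) * (1 - w) -
      gam P w * kk P h) ^ 2 / 4

/-- The `(t, a, b)` determinant times `w (1 - w)²` at `q = (w + h)/(1 - w)`. -/
noncomputable def qT : ℝ :=
  qQ P * (-c2 P * (w * (1 - w) ^ 2) +
      (w * (1 - w) / 2 - gam P w) * (w + h - kk P h * (1 - w))) -
    w * ((-(1 / 2) * c3 P h - (1 - kk P h) / 4) * (1 - w) - (w + h)) ^ 2 / 4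

/-- All conditions at `(w, h)`. -/
structure Good : Prop where
  hk : kk P h * (1 - w) ≤ h
  hk0 : 0 ≤ kk P h
  hk1 : kk P h ≤ 1
  hτ : 0 ≤ P.τ
  hX : 0 < qX P h
  hI : 0 < qInner P h
  hD : 0 < qDet P h
  hP : 0 < qP P h
  hQ : 0 < qQ P
  hS : 0 < qS P w h
  hT : 0 < qT P w h

end Vale.Agent.P100.Four
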