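import Vale.Agent.P100.Assembly
import Vale.Agent.P100.BlockForm
import Vale.Agent.P100.Four.Defs

/-!
# P100: the conditions in dimension four give a certificate
-/

namespace Vale.Agent.P100.Four

open Filter Topology

variable {P : Par} {w h : ℝ}

/-- The coefficient of `s b`. -/
noncomputable def cG (P : Par) (w : ℝ) : ℝ := gam P w / (w * (1 - w))

theorem wForm_eq (P : Par) (h x y z : ℝ) :
    wForm 4 (1 - kk P h) 1 (c1 P h) (c2 P) (c3 P h) (c4 P) P.τ x y z =
      qX P h * x ^ 2 + 2 * qR P h * (x * y) + qM P h * y ^ 2 + 2 * qV P h * (x * z) +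
        2 * qW P h * (y * z) + qZ P * z ^ 2 := by
  simp only [wForm, qX, qR, qM, qV, qW, qZ]
  push_cast
  ring

theorem sideS_eq (hw : 0 < w) (hw' : w < 1) :
    qP P h * (-c3 P h + cG P w * ((1 - w + h) / w)) -
        ((-(1 / 2) * c2 P - (1 / 4 + (1 - w + h) / w) + cG P w * -kk P h) / 2) ^ 2 =
      qS P w h / (w ^ 2 * (1 - w) ^ 2) := by
  have : 1 - w ≠ 0 := by linarith
  simp only [qS, cG]
  field_simp
  ring

theorem sideT_eq (hw : 0 < w) (hw' : w < 1) :
    qQ P * (-c2 P + (1 / 2 - cG P w) * ((w + h) / (1 - w) - kk P h)) -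
        ((-(1 / 2) * c3 P h - ((1 - kk P h) / 4 + (w + h) / (1 - w))) / 2) ^ 2 =
      qT P w h / (w * (1 - w) ^ 2) := by
  have : 1 - w ≠ 0 := by linarith
  simp only [qT, cG]
  field_simp
  ring

/-- **The certificate.** -/
theorem cert_of_good (hw : 0 < w) (hw' : w < 1) {p q : ℝ} (hp : p = (1 - w + h) / w)
    (hq : q = (w + h) / (1 - w)) (H : Good P w h) :
    ∃ (δ : ℝ) (c : Fin 14 → ℝ), 0 < δ ∧ IsCert 4 p q (1 - kk P h) 1 δ c := by
  obtain ⟨-, hk0, -, hτ, hX, hI, hD, hP, hQ, hS, hT⟩ := H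
  subst hp hq
  have hd : (0 : ℝ) < 1 - w := by linarith
  have fS : 0 < qP P h * (-c3 P h + cG P w * ((1 - w + h) / w)) -
      ((-(1 / 2) * c2 P - (1 / 4 + (1 - w + h) / w) + cG P w * -kk P h) / 2) ^ 2 := by
    rw [sideS_eq hw hw']; positivity
  have fT : 0 < qQ P * (-c2 P + (1 / 2 - cG P w) * ((w + h) / (1 - w) - kk P h)) -
      ((-(1 / 2) * c3 P h - ((1 - kk P h) / 4 + (w + h) / (1 - w))) / 2) ^ 2 := by
    rw [sideT_eq hw hw']; positivity
  set G := cG P w
  set k := kk P h with hk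
  set T₁ := (w + h) / (1 - w)
  set X := qX P h
  set Z := qZ P
  set V := qV P h
  set M := qM P h
  set R := qR P h
  set S := qW P h
  have ev : ∀ {f : ℝ → ℝ}, Continuous f → 0 < f 0 → ∀ᶠ ε in 𝓝[>] (0 : ℝ), 0 < f ε :=
    fun hf hf0 => eventually_nhdsWithin_of_eventually_nhds
      ((hf.tendsto 0).eventually (eventually_gt_nhds hf0))
  obtain ⟨ε, e1, e2, e3, e4, e5, hε⟩ := ((ev (f := fun ε => X - ε) (by fun_prop)
    (by simpa using hX)).and ((ev (f := fun ε => (X - ε) * (Z - ε) - V ^ 2) (by fun_prop)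
    (by simpa [qInner] using hI)).and ((ev (f := fun ε => (X - ε) * M * (Z - ε) + 2 * R * S * V -
      (X - ε) * S ^ 2 - (Z - ε) * R ^ 2 - V ^ 2 * M) (by fun_prop)
    (by simpa [qDet] using hD)).and
    ((ev (f := fun ε => qQ P * (-c2 P + (1 / 2 - 2 * ε - G) * (T₁ - k)) -
      ((-(1 / 2) * c3 P h - ((1 - k) / 4 + T₁)) / 2) ^ 2) (by fun_prop) (by simpa using fT)).and
    ((eventually_nhdsWithin_of_eventually_nhds
      (eventually_le_nhds (by norm_num : (0 : ℝ) < 1 / 4))).and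
        (eventually_mem_nhdsWithin (s := Set.Ioi (0 : ℝ)))))))).exists
  have hε0 : 0 < ε := hε
  obtain ⟨δ, hδ, hc⟩ := isCert_of_blocks (n := 4) (p := (1 - w + h) / w) (q := T₁) (A := 1 - k)
    (B := 1) (c₁ := c1 P h) (c₂ := c2 P) (c₃ := c3 P h) (c₄ := c4 P) (g := G)
    (h := 1 / 2 - 2 * ε - G) (τ := P.τ) (by norm_num) hε0 hτ
    (fun x y z => by
      rw [hk, wForm_eq]
      linarith [Block.form_nonneg e1 e2 e3 x y z])
    (by simp only [qP] at hP; push_cast; linarith)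
    (by
      have := fS
      simp only [qP] at this
      push_cast
      calc _ = ((-(1 / 2) * c2 P - (1 / 4 + (1 - w + h) / w) + G * -k) / 2) ^ 2 := by ring
        _ ≤ (-(3 / 2) * c1 P h + (1 + k) / 4) * (-c3 P h + G * ((1 - w + h) / w)) := by linarith
        _ = _ := by ring)
    (by simp only [qQ] at hQ; push_cast; linarith)
    (by
      have := e4
      simp only [qQ] at this
      push_cast
      calc _ = ((-(1 / 2) * c3 P h - ((1 - k) / 4 + T₁)) / 2) ^ 2 := by ring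
        _ ≤ (-(3 / 2) * c4 P + 1 / 4) * (-c2 P + (1 / 2 - 2 * ε - G) * (T₁ - k)) := by linarith
        _ = _ := by ring)
    (fun s t _ _ => by
      push_cast
      nlinarith [mul_nonneg (sub_nonneg.2 e5) (sq_nonneg (s - t))])
  exact ⟨δ, _, hδ, hc⟩

end Vale.Agent.P100.Four
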