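import Vale.Agent.P100.Four.Ranges
import Vale.Agent.P100.Weighted.Main

/-!
# P100: the weighted system in dimension four
-/

namespace Vale.Agent.P100.Four

open Weighted

variable {σ τ p q : ℝ}

theorem exists_good {w h : ℝ} (hw : 0 < w) (hw' : w ≤ 1 / 2) (hh : 0 < h) (hh' : h ≤ 9 / 10) :
    ∃ P : Par, Good P w h := by
  rcases le_total w (3 / 100) with e1 | e1
  · rcases le_total h (3 / 4) with e2 | e2
    · exact ⟨_, good0 w h hw hw.le e1 hh.le e2⟩
    · exact ⟨_, good1 w h hw hw.le e1 e2 hh'⟩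
  rcases le_total w (3 / 10) with e3 | e3
  · rcases le_total h (3 / 4) with e2 | e2
    · exact ⟨_, good2 w h hw e1 e3 hh.le e2⟩
    · exact ⟨_, good3 w h hw e1 e3 e2 hh'⟩
  rcases le_total h (3 / 4) with e2 | e2
  · exact ⟨_, good4 w h hw e3 hw' hh.le e2⟩
  · exact ⟨_, good5 w h hw e3 hw' e2 hh'⟩

theorem no_solution_ordered {n : ℕ} (hn : n = 4) (hq : 0 < q) (hqp : q ≤ p) (hpq : 1 < p * q)
    (hreg : 10 * (p * q - 1) ≤ 9 * (p + q + 2))
    (hsub : (n : ℝ) - 2 < ((n : ℝ) + σ) / (p + 1) + ((n : ℝ) + τ) / (q + 1)) :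
    ¬ ∃ u v : (Fin n → ℝ) → ℝ, IsSolW σ τ p q u v := by
  rintro ⟨u, v, hsol⟩
  subst hn
  have hs : 0 < p + q + 2 := by linarith
  set w := (q + 1) / (p + q + 2) with hw
  set h := (p * q - 1) / (p + q + 2) with hh
  have hw0 : 0 < w := div_pos (by linarith) hs
  have hw1 : w ≤ 1 / 2 := by rw [hw, div_le_iff₀ hs]; linarith
  have hh0 : 0 < h := div_pos (by linarith) hs
  have hh1 : h ≤ 9 / 10 := by
    rw [hh, div_le_iff₀ hs]
    linarith
  have hp' : p = (1 - w + h) / w := by rw [hw, hh]; field_simp; ring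
  have hq' : q = (w + h) / (1 - w) := by
    rw [hw, hh, one_sub_div hs.ne', ← add_div, div_div_div_cancel_right₀ hs.ne',
      eq_div_iff (by linarith)]
    ring
  obtain ⟨P, hP⟩ := exists_good hw0 hw1 hh0 hh1
  obtain ⟨δ, c, hδ, hc⟩ := cert_of_good hw0 (by linarith) hp' hq' hP
  have hk := hP.hk
  rw [hw, hh, one_sub_div hs.ne', mul_div_assoc', div_le_div_iff_of_pos_right hs,
    show p + q + 2 - (q + 1) = p + 1 by ring, ← hh] at hk
  refine no_solution_of_certW (n := 4) (by norm_num) hsol (by linarith) hq hpq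
    (sub_nonneg.2 hP.hk1) (by linarith [hP.hk0]) zero_le_one le_rfl ?_ hsub hδ hc
  linarith

/-- **Dimension four, `α + β ≥ 20 / 9`.** -/
theorem no_solution {n : ℕ} (hn : n = 4) (hp : 0 < p) (hq : 0 < q) (hpq : 1 < p * q)
    (hreg : 10 * (p * q - 1) ≤ 9 * (p + q + 2))
    (hsub : (n : ℝ) - 2 < ((n : ℝ) + σ) / (p + 1) + ((n : ℝ) + τ) / (q + 1)) :
    ¬ ∃ u v : (Fin n → ℝ) → ℝ, IsSolW σ τ p q u v := by
  rcases le_total q p with h | h
  · exact no_solution_ordered hn hq h hpq hreg hsub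
  · rintro ⟨u, v, huv⟩
    exact no_solution_ordered hn hp h (by rwa [mul_comm]) (by rw [mul_comm q p]; linarith)
      (by linarith) ⟨v, u, huv.swap⟩

/-- Both weights at most `-1/5` put every subcritical pair into that region. -/
theorem region_of_weights {n : ℕ} (hn : n = 4) (hp : 0 < p) (hq : 0 < q)
    (hσ : σ ≤ -1 / 5) (hτ : τ ≤ -1 / 5)
    (hsub : (n : ℝ) - 2 < ((n : ℝ) + σ) / (p + 1) + ((n : ℝ) + τ) / (q + 1)) :
    10 * (p * q - 1) ≤ 9 * (p + q + 2) := by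
  subst hn
  push_cast at hsub
  rw [div_add_div _ _ (by linarith) (by linarith), lt_div_iff₀ (by nlinarith)] at hsub
  nlinarith [mul_le_mul_of_nonneg_right hσ (by linarith : (0 : ℝ) ≤ q + 1),
    mul_le_mul_of_nonneg_right hτ (by linarith : (0 : ℝ) ≤ p + 1)]

end Vale.Agent.P100.Four
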