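import Vale.Agent.P100.Four.Cert

/-!
# P100: positivity on the six ranges in dimension four

Bernstein expansions, computed exactly and checked here by `ring`.
-/

namespace Vale.Agent.P100.Four

/-- The parameters of range 0. -/
noncomputable def par0 : Par :=
  ⟨1, 0, (89 / 1000), (-407 / 1000), (-39 / 125), (23 / 1000), (6 / 25), (-11 / 200), (159 / 250)⟩

theorem qX0_0 (w h : ℝ) (hw : 0 < w) (hw0 : 0 ≤ w) (hw1 : w ≤ (3 / 100))
    (hh0 : 0 ≤ h) (hh1 : h ≤ (3 / 4)) : 0 < qX par0 h := by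
  have e : ∀ u u' v v' : ℝ, u = (w - 0) / (3 / 100) → u' = 1 - u →
      v = (h - 0) / (3 / 4) → v' = 1 - v → qX par0 h = ((1 / 10000000000) + (
        ((1995592499 / 10000000000) * v' ^ 2 + (2162467499 / 5000000000) * v ^ 1 * v' ^ 1
          + (923092499 / 10000000000) * v ^ 2))) := by
    rintro u u' v v' rfl rfl rfl rfl
    simp only [qX, qInner, qDet, qP, qQ, qS, qT, qR, qM, qV, qW, qZ, c1, c2, c3, c4, kk, gam, par0]
    ring
  obtain ⟨u, hu0, hu⟩ : ∃ u : ℝ, 0 ≤ u ∧ u = (w - 0) / (3 / 100) :=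
    ⟨_, div_nonneg (by linarith) (by norm_num), rfl⟩
  obtain ⟨v, hv0, hv⟩ : ∃ v : ℝ, 0 ≤ v ∧ v = (h - 0) / (3 / 4) :=
    ⟨_, div_nonneg (by linarith) (by norm_num), rfl⟩
  have hu1 : 0 ≤ 1 - u := by rw [hu, sub_nonneg, div_le_one (by norm_num)]; linarith
  have hv1 : 0 ≤ 1 - v := by rw [hv, sub_nonneg, div_le_one (by norm_num)]; linarith
  rw [e u (1 - u) v (1 - v) hu rfl hv rfl]
  positivity

theorem qInner0_0 (w h : ℝ) (hw : 0 < w) (hw0 : 0 ≤ w) (hw1 : w ≤ (3 / 100))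
    (hh0 : 0 ≤ h) (hh1 : h ≤ (3 / 4)) : 0 < qInner par0 h := by
  have e : ∀ u u' v v' : ℝ, u = (w - 0) / (3 / 100) → u' = 1 - u →
      v = (h - 0) / (3 / 4) → v' = 1 - v → qInner par0 h = ((1 / 10000000000) + (
        ((26026587029 / 2000000000000) * v' ^ 4
          + (692482217107 / 4000000000000) * v ^ 1 * v' ^ 3
          + (525673373799 / 2000000000000) * v ^ 2 * v' ^ 2
          + (576022040107 / 4000000000000) * v ^ 3 * v' ^ 1
          + (43001386529 / 2000000000000) * v ^ 4))) := by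
    rintro u u' v v' rfl rfl rfl rfl
    simp only [qX, qInner, qDet, qP, qQ, qS, qT, qR, qM, qV, qW, qZ, c1, c2, c3, c4, kk, gam, par0]
    ring
  obtain ⟨u, hu0, hu⟩ : ∃ u : ℝ, 0 ≤ u ∧ u = (w - 0) / (3 / 100) :=
    ⟨_, div_nonneg (by linarith) (by norm_num), rfl⟩
  obtain ⟨v, hv0, hv⟩ : ∃ v : ℝ, 0 ≤ v ∧ v = (h - 0) / (3 / 4) :=
    ⟨_, div_nonneg (by linarith) (by norm_num), rfl⟩
  have hu1 : 0 ≤ 1 - u := by rw [hu, sub_nonneg, div_le_one (by norm_num)]; linarith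
  have hv1 : 0 ≤ 1 - v := by rw [hv, sub_nonneg, div_le_one (by norm_num)]; linarith
  rw [e u (1 - u) v (1 - v) hu rfl hv rfl]
  positivity

theorem qDet0_0 (w h : ℝ) (hw : 0 < w) (hw0 : 0 ≤ w) (hw1 : w ≤ (3 / 100))
    (hh0 : 0 ≤ h) (hh1 : h ≤ (3 / 4)) : 0 < qDet par0 h := by
  have e : ∀ u u' v v' : ℝ, u = (w - 0) / (3 / 100) → u' = 1 - u →
      v = (h - 0) / (3 / 4) → v' = 1 - v → qDet par0 h = ((1 / 10000000000) + (
        ((39913228998775571 / 64000000000000000000) * v' ^ 4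
          + (343250029406710571 / 16000000000000000000) * v ^ 1 * v' ^ 3
          + (987154378743249213 / 32000000000000000000) * v ^ 2 * v' ^ 2
          + (222675962943768071 / 16000000000000000000) * v ^ 3 * v' ^ 1
          + (17766611822890571 / 64000000000000000000) * v ^ 4))) := by
    rintro u u' v v' rfl rfl rfl rfl
    simp only [qX, qInner, qDet, qP, qQ, qS, qT, qR, qM, qV, qW, qZ, c1, c2, c3, c4, kk, gam, par0]
    ring
  obtain ⟨u, hu0, hu⟩ : ∃ u : ℝ, 0 ≤ u ∧ u = (w - 0) / (3 / 100) :=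
    ⟨_, div_nonneg (by linarith) (by norm_num), rfl⟩
  obtain ⟨v, hv0, hv⟩ : ∃ v : ℝ, 0 ≤ v ∧ v = (h - 0) / (3 / 4) :=
    ⟨_, div_nonneg (by linarith) (by norm_num), rfl⟩
  have hu1 : 0 ≤ 1 - u := by rw [hu, sub_nonneg, div_le_one (by norm_num)]; linarith
  have hv1 : 0 ≤ 1 - v := by rw [hv, sub_nonneg, div_le_one (by norm_num)]; linarith
  rw [e u (1 - u) v (1 - v) hu rfl hv rfl]
  positivity

theorem qP0_0 (w h : ℝ) (hw : 0 < w) (hw0 : 0 ≤ w) (hw1 : w ≤ (3 / 100))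
    (hh0 : 0 ≤ h) (hh1 : h ≤ (3 / 4)) : 0 < qP par0 h := by
  have e : ∀ u u' v v' : ℝ, u = (w - 0) / (3 / 100) → u' = 1 - u →
      v = (h - 0) / (3 / 4) → v' = 1 - v → qP par0 h = ((1 / 10000000000) + (
        ((8664999999 / 10000000000) * v' ^ 1 + (16164999999 / 10000000000) * v ^ 1))) := by
    rintro u u' v v' rfl rfl rfl rfl
    simp only [qX, qInner, qDet, qP, qQ, qS, qT, qR, qM, qV, qW, qZ, c1, c2, c3, c4, kk, gam, par0]
    ring
  obtain ⟨u, hu0, hu⟩ : ∃ u : ℝ, 0 ≤ u ∧ u = (w - 0) / (3 / 100) :=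
    ⟨_, div_nonneg (by linarith) (by norm_num), rfl⟩
  obtain ⟨v, hv0, hv⟩ : ∃ v : ℝ, 0 ≤ v ∧ v = (h - 0) / (3 / 4) :=
    ⟨_, div_nonneg (by linarith) (by norm_num), rfl⟩
  have hu1 : 0 ≤ 1 - u := by rw [hu, sub_nonneg, div_le_one (by norm_num)]; linarith
  have hv1 : 0 ≤ 1 - v := by rw [hv, sub_nonneg, div_le_one (by norm_num)]; linarith
  rw [e u (1 - u) v (1 - v) hu rfl hv rfl]
  positivity

theorem qS0_0 (w h : ℝ) (hw : 0 < w) (hw0 : 0 ≤ w) (hw1 : w ≤ (3 / 100))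
    (hh0 : 0 ≤ h) (hh1 : h ≤ (3 / 4)) : 0 < qS par0 w h := by
  have e : ∀ u u' v v' : ℝ, u = (w - 0) / (3 / 100) → u' = 1 - u →
      v = (h - 0) / (3 / 4) → v' = 1 - v → qS par0 w h = ((1 / 10000000000) + (
        u' ^ 4 * ((1355924999 / 10000000000) * v' ^ 2
          + (880635937 / 2500000000) * v ^ 1 * v' ^ 1 + (6933834371 / 40000000000) * v ^ 2)
        + u ^ 1 * u' ^ 3 * ((339265481 / 625000000) * v' ^ 2
          + (56684208793 / 40000000000) * v ^ 1 * v' ^ 1 + (28159786259 / 40000000000) * v ^ 2)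
        + u ^ 2 * u' ^ 2 * ((130373323023 / 160000000000) * v' ^ 2
          + (341964215493 / 160000000000) * v ^ 1 * v' ^ 1 + (85694197713 / 80000000000) * v ^ 2)
        + u ^ 3 * u' ^ 1 * ((4348412153191 / 8000000000000) * v' ^ 2
          + (89514189067 / 62500000000) * v ^ 1 * v' ^ 1
          + (1158004478597 / 1600000000000) * v ^ 2)
        + u ^ 4 * ((217521274505639 / 1600000000000000) * v' ^ 2
          + (287841845262539 / 800000000000000) * v ^ 1 * v' ^ 1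
          + (293159046079439 / 1600000000000000) * v ^ 2))) := by
    rintro u u' v v' rfl rfl rfl rfl
    simp only [qX, qInner, qDet, qP, qQ, qS, qT, qR, qM, qV, qW, qZ, c1, c2, c3, c4, kk, gam, par0]
    ring
  obtain ⟨u, hu0, hu⟩ : ∃ u : ℝ, 0 ≤ u ∧ u = (w - 0) / (3 / 100) :=
    ⟨_, div_nonneg (by linarith) (by norm_num), rfl⟩
  obtain ⟨v, hv0, hv⟩ : ∃ v : ℝ, 0 ≤ v ∧ v = (h - 0) / (3 / 4) :=
    ⟨_, div_nonneg (by linarith) (by norm_num), rfl⟩
  have hu1 : 0 ≤ 1 - u := by rw [hu, sub_nonneg, div_le_one (by norm_num)]; linarith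
  have hv1 : 0 ≤ 1 - v := by rw [hv, sub_nonneg, div_le_one (by norm_num)]; linarith
  rw [e u (1 - u) v (1 - v) hu rfl hv rfl]
  positivity

theorem qT0_0 (w h : ℝ) (hw : 0 < w) (hw0 : 0 ≤ w) (hw1 : w ≤ (3 / 100))
    (hh0 : 0 ≤ h) (hh1 : h ≤ (3 / 4)) : 0 < qT par0 w h := by
  have e : ∀ u u' v v' : ℝ, u = (w - 0) / (3 / 100) → u' = 1 - u →
      v = (h - 0) / (3 / 4) → v' = 1 - v → qT par0 w h = w ^ 1 * ((1 / 10000000000) + (
        u' ^ 2 * ((4399769999 / 10000000000) * v' ^ 2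
          + (1540545937 / 2500000000) * v ^ 1 * v' ^ 1 + (356163749 / 10000000000) * v ^ 2)
        + u ^ 1 * u' ^ 1 * ((4275711449 / 5000000000) * v' ^ 2
          + (742861031 / 625000000) * v ^ 1 * v' ^ 1 + (260926799 / 5000000000) * v ^ 2)
        + u ^ 2 * ((8304365539 / 20000000000) * v' ^ 2
          + (11442787853 / 20000000000) * v ^ 1 * v' ^ 1 + (162961157 / 10000000000) * v ^ 2))) := by
    rintro u u' v v' rfl rfl rfl rfl
    simp only [qX, qInner, qDet, qP, qQ, qS, qT, qR, qM, qV, qW, qZ, c1, c2, c3, c4, kk, gam, par0]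
    ring
  obtain ⟨u, hu0, hu⟩ : ∃ u : ℝ, 0 ≤ u ∧ u = (w - 0) / (3 / 100) :=
    ⟨_, div_nonneg (by linarith) (by norm_num), rfl⟩
  obtain ⟨v, hv0, hv⟩ : ∃ v : ℝ, 0 ≤ v ∧ v = (h - 0) / (3 / 4) :=
    ⟨_, div_nonneg (by linarith) (by norm_num), rfl⟩
  have hu1 : 0 ≤ 1 - u := by rw [hu, sub_nonneg, div_le_one (by norm_num)]; linarith
  have hv1 : 0 ≤ 1 - v := by rw [hv, sub_nonneg, div_le_one (by norm_num)]; linarith
  rw [e u (1 - u) v (1 - v) hu rfl hv rfl]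
  positivity

theorem good0 (w h : ℝ) (hw : 0 < w) (hw0 : 0 ≤ w) (hw1 : w ≤ (3 / 100))
    (hh0 : 0 ≤ h) (hh1 : h ≤ (3 / 4)) : Good par0 w h where
  hk := by
    simp only [kk, par0]
    nlinarith [mul_le_mul_of_nonneg_left hw0 (show (0 : ℝ) ≤ 0 + 1 * h by linarith)]
  hk0 := by simp only [kk, par0]; linarith
  hk1 := by simp only [kk, par0]; linarith
  hτ := by simp only [par0]; norm_num
  hQ := by simp only [qQ, c4, par0]; norm_num
  hX := by
    exact qX0_0 w h hw hw0 hw1 hh0 hh1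
  hI := by
    exact qInner0_0 w h hw hw0 hw1 hh0 hh1
  hD := by
    exact qDet0_0 w h hw hw0 hw1 hh0 hh1
  hP := by
    exact qP0_0 w h hw hw0 hw1 hh0 hh1
  hS := by
    exact qS0_0 w h hw hw0 hw1 hh0 hh1
  hT := by
    exact qT0_0 w h hw hw0 hw1 hh0 hh1

/-- The parameters of range 1. -/
noncomputable def par1 : Par :=
  ⟨1, 0, (257 / 2000), (-3403 / 10000), (-8329 / 10000), (1007 / 5000), (1871 / 5000), (-209 / 2000), (4201 / 10000)⟩

theorem qX1_0 (w h : ℝ) (hw : 0 < w) (hw0 : 0 ≤ w) (hw1 : w ≤ (3 / 100))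
    (hh0 : (3 / 4) ≤ h) (hh1 : h ≤ (9 / 10)) : 0 < qX par1 h := by
  have e : ∀ u u' v v' : ℝ, u = (w - 0) / (3 / 100) → u' = 1 - u →
      v = (h - (3 / 4)) / (3 / 20) → v' = 1 - v → qX par1 h = ((1 / 10000000000) + (
        ((202320781 / 2500000000) * v' ^ 2 + (36013789 / 312500000) * v ^ 1 * v' ^ 1
          + (71727031 / 2500000000) * v ^ 2))) := by
    rintro u u' v v' rfl rfl rfl rfl
    simp only [qX, qInner, qDet, qP, qQ, qS, qT, qR, qM, qV, qW, qZ, c1, c2, c3, c4, kk, gam, par1]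
    ring
  obtain ⟨u, hu0, hu⟩ : ∃ u : ℝ, 0 ≤ u ∧ u = (w - 0) / (3 / 100) :=
    ⟨_, div_nonneg (by linarith) (by norm_num), rfl⟩
  obtain ⟨v, hv0, hv⟩ : ∃ v : ℝ, 0 ≤ v ∧ v = (h - (3 / 4)) / (3 / 20) :=
    ⟨_, div_nonneg (by linarith) (by norm_num), rfl⟩
  have hu1 : 0 ≤ 1 - u := by rw [hu, sub_nonneg, div_le_one (by norm_num)]; linarith
  have hv1 : 0 ≤ 1 - v := by rw [hv, sub_nonneg, div_le_one (by norm_num)]; linarith
  rw [e u (1 - u) v (1 - v) hu rfl hv rfl]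
  positivity

theorem qInner1_0 (w h : ℝ) (hw : 0 < w) (hw0 : 0 ≤ w) (hw1 : w ≤ (3 / 100))
    (hh0 : (3 / 4) ≤ h) (hh1 : h ≤ (9 / 10)) : 0 < qInner par1 h := by
  have e : ∀ u u' v v' : ℝ, u = (w - 0) / (3 / 100) → u' = 1 - u →
      v = (h - (3 / 4)) / (3 / 20) → v' = 1 - v → qInner par1 h = ((1 / 10000000000) + (
        ((1740883759423 / 200000000000000) * v' ^ 4
          + (3192303065321 / 100000000000000) * v ^ 1 * v' ^ 3
          + (4062213998319 / 100000000000000) * v ^ 2 * v' ^ 2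
          + (2078468507021 / 100000000000000) * v ^ 3 * v' ^ 1
          + (669903263623 / 200000000000000) * v ^ 4))) := by
    rintro u u' v v' rfl rfl rfl rfl
    simp only [qX, qInner, qDet, qP, qQ, qS, qT, qR, qM, qV, qW, qZ, c1, c2, c3, c4, kk, gam, par1]
    ring
  obtain ⟨u, hu0, hu⟩ : ∃ u : ℝ, 0 ≤ u ∧ u = (w - 0) / (3 / 100) :=
    ⟨_, div_nonneg (by linarith) (by norm_num), rfl⟩
  obtain ⟨v, hv0, hv⟩ : ∃ v : ℝ, 0 ≤ v ∧ v = (h - (3 / 4)) / (3 / 20) :=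
    ⟨_, div_nonneg (by linarith) (by norm_num), rfl⟩
  have hu1 : 0 ≤ 1 - u := by rw [hu, sub_nonneg, div_le_one (by norm_num)]; linarith
  have hv1 : 0 ≤ 1 - v := by rw [hv, sub_nonneg, div_le_one (by norm_num)]; linarith
  rw [e u (1 - u) v (1 - v) hu rfl hv rfl]
  positivity

theorem qDet1_0 (w h : ℝ) (hw : 0 < w) (hw0 : 0 ≤ w) (hw1 : w ≤ (3 / 100))
    (hh0 : (3 / 4) ≤ h) (hh1 : h ≤ (9 / 10)) : 0 < qDet par1 h := by
  have e : ∀ u u' v v' : ℝ, u = (w - 0) / (3 / 100) → u' = 1 - u →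
      v = (h - (3 / 4)) / (3 / 20) → v' = 1 - v → qDet par1 h = ((1 / 10000000000) + (
        ((23404512912898382797 / 32000000000000000000000) * v' ^ 4
          + (9806097689988407291 / 4000000000000000000000) * v ^ 1 * v' ^ 3
          + (41806876527359305851 / 16000000000000000000000) * v ^ 2 * v' ^ 2
          + (3606177480181653701 / 4000000000000000000000) * v ^ 3 * v' ^ 1
          + (77645148305993437 / 32000000000000000000000) * v ^ 4))) := by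
    rintro u u' v v' rfl rfl rfl rfl
    simp only [qX, qInner, qDet, qP, qQ, qS, qT, qR, qM, qV, qW, qZ, c1, c2, c3, c4, kk, gam, par1]
    ring
  obtain ⟨u, hu0, hu⟩ : ∃ u : ℝ, 0 ≤ u ∧ u = (w - 0) / (3 / 100) :=
    ⟨_, div_nonneg (by linarith) (by norm_num), rfl⟩
  obtain ⟨v, hv0, hv⟩ : ∃ v : ℝ, 0 ≤ v ∧ v = (h - (3 / 4)) / (3 / 20) :=
    ⟨_, div_nonneg (by linarith) (by norm_num), rfl⟩
  have hu1 : 0 ≤ 1 - u := by rw [hu, sub_nonneg, div_le_one (by norm_num)]; linarith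
  have hv1 : 0 ≤ 1 - v := by rw [hv, sub_nonneg, div_le_one (by norm_num)]; linarith
  rw [e u (1 - u) v (1 - v) hu rfl hv rfl]
  positivity

theorem qP1_0 (w h : ℝ) (hw : 0 < w) (hw0 : 0 ≤ w) (hw1 : w ≤ (3 / 100))
    (hh0 : (3 / 4) ≤ h) (hh1 : h ≤ (9 / 10)) : 0 < qP par1 h := by
  have e : ∀ u u' v v' : ℝ, u = (w - 0) / (3 / 100) → u' = 1 - u →
      v = (h - (3 / 4)) / (3 / 20) → v' = 1 - v → qP par1 h = ((1 / 10000000000) + (
        ((15572499999 / 10000000000) * v' ^ 1 + (17072499999 / 10000000000) * v ^ 1))) := by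
    rintro u u' v v' rfl rfl rfl rfl
    simp only [qX, qInner, qDet, qP, qQ, qS, qT, qR, qM, qV, qW, qZ, c1, c2, c3, c4, kk, gam, par1]
    ring
  obtain ⟨u, hu0, hu⟩ : ∃ u : ℝ, 0 ≤ u ∧ u = (w - 0) / (3 / 100) :=
    ⟨_, div_nonneg (by linarith) (by norm_num), rfl⟩
  obtain ⟨v, hv0, hv⟩ : ∃ v : ℝ, 0 ≤ v ∧ v = (h - (3 / 4)) / (3 / 20) :=
    ⟨_, div_nonneg (by linarith) (by norm_num), rfl⟩
  have hu1 : 0 ≤ 1 - u := by rw [hu, sub_nonneg, div_le_one (by norm_num)]; linarith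
  have hv1 : 0 ≤ 1 - v := by rw [hv, sub_nonneg, div_le_one (by norm_num)]; linarith
  rw [e u (1 - u) v (1 - v) hu rfl hv rfl]
  positivity

theorem qS1_0 (w h : ℝ) (hw : 0 < w) (hw0 : 0 ≤ w) (hw1 : w ≤ (3 / 100))
    (hh0 : (3 / 4) ≤ h) (hh1 : h ≤ (9 / 10)) : 0 < qS par1 w h := by
  have e : ∀ u u' v v' : ℝ, u = (w - 0) / (3 / 100) → u' = 1 - u →
      v = (h - (3 / 4)) / (3 / 20) → v' = 1 - v → qS par1 w h = ((1 / 10000000000) + (
        u' ^ 4 * ((4902909359 / 160000000000) * v' ^ 2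
          + (1731363367 / 40000000000) * v ^ 1 * v' ^ 1 + (423416471 / 40000000000) * v ^ 2)
        + u ^ 1 * u' ^ 3 * ((40752074137 / 320000000000) * v' ^ 2
          + (29472780349 / 160000000000) * v ^ 1 * v' ^ 1 + (9743679631 / 200000000000) * v ^ 2)
        + u ^ 2 * u' ^ 2 * ((12717635833299 / 64000000000000) * v' ^ 2
          + (23511986595903 / 80000000000000) * v ^ 1 * v' ^ 1
          + (16619989099263 / 200000000000000) * v ^ 2)
        + u ^ 3 * u' ^ 1 * ((220633960570553 / 1600000000000000) * v' ^ 2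
          + (1665739569920387 / 8000000000000000) * v ^ 1 * v' ^ 1
          + (124669921376953 / 2000000000000000) * v ^ 2)
        + u ^ 4 * ((5742583142569511 / 160000000000000000) * v' ^ 2
          + (4419223245615581 / 80000000000000000) * v ^ 1 * v' ^ 1
          + (2779031237913551 / 160000000000000000) * v ^ 2))) := by
    rintro u u' v v' rfl rfl rfl rfl
    simp only [qX, qInner, qDet, qP, qQ, qS, qT, qR, qM, qV, qW, qZ, c1, c2, c3, c4, kk, gam, par1]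
    ring
  obtain ⟨u, hu0, hu⟩ : ∃ u : ℝ, 0 ≤ u ∧ u = (w - 0) / (3 / 100) :=
    ⟨_, div_nonneg (by linarith) (by norm_num), rfl⟩
  obtain ⟨v, hv0, hv⟩ : ∃ v : ℝ, 0 ≤ v ∧ v = (h - (3 / 4)) / (3 / 20) :=
    ⟨_, div_nonneg (by linarith) (by norm_num), rfl⟩
  have hu1 : 0 ≤ 1 - u := by rw [hu, sub_nonneg, div_le_one (by norm_num)]; linarith
  have hv1 : 0 ≤ 1 - v := by rw [hv, sub_nonneg, div_le_one (by norm_num)]; linarith
  rw [e u (1 - u) v (1 - v) hu rfl hv rfl]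
  positivity

theorem qT1_0 (w h : ℝ) (hw : 0 < w) (hw0 : 0 ≤ w) (hw1 : w ≤ (3 / 100))
    (hh0 : (3 / 4) ≤ h) (hh1 : h ≤ (9 / 10)) : 0 < qT par1 w h := by
  have e : ∀ u u' v v' : ℝ, u = (w - 0) / (3 / 100) → u' = 1 - u →
      v = (h - (3 / 4)) / (3 / 20) → v' = 1 - v → qT par1 w h = w ^ 1 * ((1 / 10000000000) + (
        u' ^ 2 * ((3023897271 / 40000000000) * v' ^ 2
          + (1695513921 / 20000000000) * v ^ 1 * v' ^ 1 + (142130571 / 40000000000) * v ^ 2)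
        + u ^ 1 * u' ^ 1 * ((11879084313 / 80000000000) * v' ^ 2
          + (16434324027 / 100000000000) * v ^ 1 * v' ^ 1 + (1841874543 / 400000000000) * v ^ 2)
        + u ^ 2 * ((1158686437359 / 16000000000000) * v' ^ 2
          + (628591970919 / 8000000000000) * v ^ 1 * v' ^ 1
          + (8497504479 / 16000000000000) * v ^ 2))) := by
    rintro u u' v v' rfl rfl rfl rfl
    simp only [qX, qInner, qDet, qP, qQ, qS, qT, qR, qM, qV, qW, qZ, c1, c2, c3, c4, kk, gam, par1]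
    ring
  obtain ⟨u, hu0, hu⟩ : ∃ u : ℝ, 0 ≤ u ∧ u = (w - 0) / (3 / 100) :=
    ⟨_, div_nonneg (by linarith) (by norm_num), rfl⟩
  obtain ⟨v, hv0, hv⟩ : ∃ v : ℝ, 0 ≤ v ∧ v = (h - (3 / 4)) / (3 / 20) :=
    ⟨_, div_nonneg (by linarith) (by norm_num), rfl⟩
  have hu1 : 0 ≤ 1 - u := by rw [hu, sub_nonneg, div_le_one (by norm_num)]; linarith
  have hv1 : 0 ≤ 1 - v := by rw [hv, sub_nonneg, div_le_one (by norm_num)]; linarith
  rw [e u (1 - u) v (1 - v) hu rfl hv rfl]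
  positivity

theorem good1 (w h : ℝ) (hw : 0 < w) (hw0 : 0 ≤ w) (hw1 : w ≤ (3 / 100))
    (hh0 : (3 / 4) ≤ h) (hh1 : h ≤ (9 / 10)) : Good par1 w h where
  hk := by
    simp only [kk, par1]
    nlinarith [mul_le_mul_of_nonneg_left hw0 (show (0 : ℝ) ≤ 0 + 1 * h by linarith)]
  hk0 := by simp only [kk, par1]; linarith
  hk1 := by simp only [kk, par1]; linarith
  hτ := by simp only [par1]; norm_num
  hQ := by simp only [qQ, c4, par1]; norm_num
  hX := by
    exact qX1_0 w h hw hw0 hw1 hh0 hh1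
  hI := by
    exact qInner1_0 w h hw hw0 hw1 hh0 hh1
  hD := by
    exact qDet1_0 w h hw hw0 hw1 hh0 hh1
  hP := by
    exact qP1_0 w h hw hw0 hw1 hh0 hh1
  hS := by
    exact qS1_0 w h hw hw0 hw1 hh0 hh1
  hT := by
    exact qT1_0 w h hw hw0 hw1 hh0 hh1

/-- The parameters of range 2. -/
noncomputable def par2 : Par :=
  ⟨(51 / 50), 0, (99 / 1000), (-39 / 100), (-239 / 1000), (-27 / 250), (111 / 500), (-3 / 125), (37 / 250)⟩

theorem qX2_0 (w h : ℝ) (hw : 0 < w) (hw0 : (3 / 100) ≤ w) (hw1 : w ≤ (3 / 10))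
    (hh0 : 0 ≤ h) (hh1 : h ≤ (3 / 4)) : 0 < qX par2 h := by
  have e : ∀ u u' v v' : ℝ, u = (w - (3 / 100)) / (27 / 100) → u' = 1 - u →
      v = (h - 0) / (3 / 4) → v' = 1 - v → qX par2 h = ((1 / 10000000000) + (
        ((1931492499 / 10000000000) * v' ^ 2 + (2120829999 / 5000000000) * v ^ 1 * v' ^ 1
          + (847104999 / 10000000000) * v ^ 2))) := by
    rintro u u' v v' rfl rfl rfl rfl
    simp only [qX, qInner, qDet, qP, qQ, qS, qT, qR, qM, qV, qW, qZ, c1, c2, c3, c4, kk, gam, par2]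
    ring
  obtain ⟨u, hu0, hu⟩ : ∃ u : ℝ, 0 ≤ u ∧ u = (w - (3 / 100)) / (27 / 100) :=
    ⟨_, div_nonneg (by linarith) (by norm_num), rfl⟩
  obtain ⟨v, hv0, hv⟩ : ∃ v : ℝ, 0 ≤ v ∧ v = (h - 0) / (3 / 4) :=
    ⟨_, div_nonneg (by linarith) (by norm_num), rfl⟩
  have hu1 : 0 ≤ 1 - u := by rw [hu, sub_nonneg, div_le_one (by norm_num)]; linarith
  have hv1 : 0 ≤ 1 - v := by rw [hv, sub_nonneg, div_le_one (by norm_num)]; linarith
  rw [e u (1 - u) v (1 - v) hu rfl hv rfl]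
  positivity

theorem qInner2_0 (w h : ℝ) (hw : 0 < w) (hw0 : (3 / 100) ≤ w) (hw1 : w ≤ (3 / 10))
    (hh0 : 0 ≤ h) (hh1 : h ≤ (3 / 4)) : 0 < qInner par2 h := by
  have e : ∀ u u' v v' : ℝ, u = (w - (3 / 100)) / (27 / 100) → u' = 1 - u →
      v = (h - 0) / (3 / 4) → v' = 1 - v → qInner par2 h = ((1 / 10000000000) + (
        ((97149112267 / 3200000000000) * v' ^ 4 + (89975607581 / 400000000000) * v ^ 1 * v' ^ 3
          + (32177918541 / 100000000000) * v ^ 2 * v' ^ 2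
          + (8644487407 / 50000000000) * v ^ 3 * v' ^ 1 + (2428496531 / 100000000000) * v ^ 4))) := by
    rintro u u' v v' rfl rfl rfl rfl
    simp only [qX, qInner, qDet, qP, qQ, qS, qT, qR, qM, qV, qW, qZ, c1, c2, c3, c4, kk, gam, par2]
    ring
  obtain ⟨u, hu0, hu⟩ : ∃ u : ℝ, 0 ≤ u ∧ u = (w - (3 / 100)) / (27 / 100) :=
    ⟨_, div_nonneg (by linarith) (by norm_num), rfl⟩
  obtain ⟨v, hv0, hv⟩ : ∃ v : ℝ, 0 ≤ v ∧ v = (h - 0) / (3 / 4) :=
    ⟨_, div_nonneg (by linarith) (by norm_num), rfl⟩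
  have hu1 : 0 ≤ 1 - u := by rw [hu, sub_nonneg, div_le_one (by norm_num)]; linarith
  have hv1 : 0 ≤ 1 - v := by rw [hv, sub_nonneg, div_le_one (by norm_num)]; linarith
  rw [e u (1 - u) v (1 - v) hu rfl hv rfl]
  positivity

theorem qDet2_0 (w h : ℝ) (hw : 0 < w) (hw0 : (3 / 100) ≤ w) (hw1 : w ≤ (3 / 10))
    (hh0 : 0 ≤ h) (hh1 : h ≤ (3 / 4)) : 0 < qDet par2 h := by
  have e : ∀ u u' v v' : ℝ, u = (w - (3 / 100)) / (27 / 100) → u' = 1 - u →
      v = (h - 0) / (3 / 4) → v' = 1 - v → qDet par2 h = ((1 / 10000000000) + (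
        ((50856171789244813 / 64000000000000000000) * v' ^ 4
          + (158432703223572449 / 8000000000000000000) * v ^ 1 * v' ^ 3
          + (128463029565330003 / 4000000000000000000) * v ^ 2 * v' ^ 2
          + (3985768373796637 / 250000000000000000) * v ^ 3 * v' ^ 1
          + (355646585614327 / 1000000000000000000) * v ^ 4))) := by
    rintro u u' v v' rfl rfl rfl rfl
    simp only [qX, qInner, qDet, qP, qQ, qS, qT, qR, qM, qV, qW, qZ, c1, c2, c3, c4, kk, gam, par2]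
    ring
  obtain ⟨u, hu0, hu⟩ : ∃ u : ℝ, 0 ≤ u ∧ u = (w - (3 / 100)) / (27 / 100) :=
    ⟨_, div_nonneg (by linarith) (by norm_num), rfl⟩
  obtain ⟨v, hv0, hv⟩ : ∃ v : ℝ, 0 ≤ v ∧ v = (h - 0) / (3 / 4) :=
    ⟨_, div_nonneg (by linarith) (by norm_num), rfl⟩
  have hu1 : 0 ≤ 1 - u := by rw [hu, sub_nonneg, div_le_one (by norm_num)]; linarith
  have hv1 : 0 ≤ 1 - v := by rw [hv, sub_nonneg, div_le_one (by norm_num)]; linarith
  rw [e u (1 - u) v (1 - v) hu rfl hv rfl]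
  positivity

theorem qP2_0 (w h : ℝ) (hw : 0 < w) (hw0 : (3 / 100) ≤ w) (hw1 : w ≤ (3 / 10))
    (hh0 : 0 ≤ h) (hh1 : h ≤ (3 / 4)) : 0 < qP par2 h := by
  have e : ∀ u u' v v' : ℝ, u = (w - (3 / 100)) / (27 / 100) → u' = 1 - u →
      v = (h - 0) / (3 / 4) → v' = 1 - v → qP par2 h = ((1 / 10000000000) + (
        ((8514999999 / 10000000000) * v' ^ 1 + (16164999999 / 10000000000) * v ^ 1))) := by
    rintro u u' v v' rfl rfl rfl rfl
    simp only [qX, qInner, qDet, qP, qQ, qS, qT, qR, qM, qV, qW, qZ, c1, c2, c3, c4, kk, gam, par2]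
    ring
  obtain ⟨u, hu0, hu⟩ : ∃ u : ℝ, 0 ≤ u ∧ u = (w - (3 / 100)) / (27 / 100) :=
    ⟨_, div_nonneg (by linarith) (by norm_num), rfl⟩
  obtain ⟨v, hv0, hv⟩ : ∃ v : ℝ, 0 ≤ v ∧ v = (h - 0) / (3 / 4) :=
    ⟨_, div_nonneg (by linarith) (by norm_num), rfl⟩
  have hu1 : 0 ≤ 1 - u := by rw [hu, sub_nonneg, div_le_one (by norm_num)]; linarith
  have hv1 : 0 ≤ 1 - v := by rw [hv, sub_nonneg, div_le_one (by norm_num)]; linarith
  rw [e u (1 - u) v (1 - v) hu rfl hv rfl]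
  positivity

theorem qS2_0 (w h : ℝ) (hw : 0 < w) (hw0 : (3 / 100) ≤ w) (hw1 : w ≤ (3 / 10))
    (hh0 : 0 ≤ h) (hh1 : h ≤ (3 / 4)) : 0 < qS par2 w h := by
  have e : ∀ u u' v v' : ℝ, u = (w - (3 / 100)) / (27 / 100) → u' = 1 - u →
      v = (h - 0) / (3 / 4) → v' = 1 - v → qS par2 w h = ((1 / 10000000000) + (
        u' ^ 4 * ((57101221368729 / 400000000000000) * v' ^ 2
          + (155056631816943 / 400000000000000) * v ^ 1 * v' ^ 1
          + (5199626773863 / 25000000000000) * v ^ 2)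
        + u ^ 1 * u' ^ 3 * ((144743547897 / 312500000000) * v' ^ 2
          + (25129720529883 / 20000000000000) * v ^ 1 * v' ^ 1
          + (64644794331417 / 100000000000000) * v ^ 2)
        + u ^ 2 * u' ^ 2 * ((1157087056887 / 2000000000000) * v' ^ 2
          + (310170512331 / 200000000000) * v ^ 1 * v' ^ 1
          + (73537077497301 / 100000000000000) * v ^ 2)
        + u ^ 3 * u' ^ 1 * ((4074597333 / 12500000000) * v' ^ 2
          + (170483156397 / 200000000000) * v ^ 1 * v' ^ 1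
          + (222726057867 / 625000000000) * v ^ 2)
        + u ^ 4 * ((110875869 / 1600000000) * v' ^ 2
          + (6982996509 / 40000000000) * v ^ 1 * v' ^ 1 + (60619112541 / 1000000000000) * v ^ 2))) := by
    rintro u u' v v' rfl rfl rfl rfl
    simp only [qX, qInner, qDet, qP, qQ, qS, qT, qR, qM, qV, qW, qZ, c1, c2, c3, c4, kk, gam, par2]
    ring
  obtain ⟨u, hu0, hu⟩ : ∃ u : ℝ, 0 ≤ u ∧ u = (w - (3 / 100)) / (27 / 100) :=
    ⟨_, div_nonneg (by linarith) (by norm_num), rfl⟩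
  obtain ⟨v, hv0, hv⟩ : ∃ v : ℝ, 0 ≤ v ∧ v = (h - 0) / (3 / 4) :=
    ⟨_, div_nonneg (by linarith) (by norm_num), rfl⟩
  have hu1 : 0 ≤ 1 - u := by rw [hu, sub_nonneg, div_le_one (by norm_num)]; linarith
  have hv1 : 0 ≤ 1 - v := by rw [hv, sub_nonneg, div_le_one (by norm_num)]; linarith
  rw [e u (1 - u) v (1 - v) hu rfl hv rfl]
  positivity

theorem qT2_0 (w h : ℝ) (hw : 0 < w) (hw0 : (3 / 100) ≤ w) (hw1 : w ≤ (3 / 10))
    (hh0 : 0 ≤ h) (hh1 : h ≤ (3 / 4)) : 0 < qT par2 w h := by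
  have e : ∀ u u' v v' : ℝ, u = (w - (3 / 100)) / (27 / 100) → u' = 1 - u →
      v = (h - 0) / (3 / 4) → v' = 1 - v → qT par2 w h = ((1 / 10000000000) + (
        u' ^ 3 * ((223061007293 / 16000000000000) * v' ^ 2
          + (39715938289 / 1600000000000) * v ^ 1 * v' ^ 1
          + (106598375597 / 16000000000000) * v ^ 2)
        + u ^ 1 * u' ^ 2 * ((262203386739 / 1600000000000) * v' ^ 2
          + (890204360511 / 4000000000000) * v ^ 1 * v' ^ 1
          + (64391787327 / 8000000000000) * v ^ 2)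
        + u ^ 2 * u' ^ 1 * ((40874945811 / 160000000000) * v' ^ 2
          + (145775815527 / 400000000000) * v ^ 1 * v' ^ 1
          + (16301901999 / 800000000000) * v ^ 2)
        + u ^ 3 * ((8662837657 / 80000000000) * v' ^ 2
          + (6538729273 / 40000000000) * v ^ 1 * v' ^ 1 + (1039620889 / 80000000000) * v ^ 2))) := by
    rintro u u' v v' rfl rfl rfl rfl
    simp only [qX, qInner, qDet, qP, qQ, qS, qT, qR, qM, qV, qW, qZ, c1, c2, c3, c4, kk, gam, par2]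
    ring
  obtain ⟨u, hu0, hu⟩ : ∃ u : ℝ, 0 ≤ u ∧ u = (w - (3 / 100)) / (27 / 100) :=
    ⟨_, div_nonneg (by linarith) (by norm_num), rfl⟩
  obtain ⟨v, hv0, hv⟩ : ∃ v : ℝ, 0 ≤ v ∧ v = (h - 0) / (3 / 4) :=
    ⟨_, div_nonneg (by linarith) (by norm_num), rfl⟩
  have hu1 : 0 ≤ 1 - u := by rw [hu, sub_nonneg, div_le_one (by norm_num)]; linarith
  have hv1 : 0 ≤ 1 - v := by rw [hv, sub_nonneg, div_le_one (by norm_num)]; linarith
  rw [e u (1 - u) v (1 - v) hu rfl hv rfl]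
  positivity

theorem good2 (w h : ℝ) (hw : 0 < w) (hw0 : (3 / 100) ≤ w) (hw1 : w ≤ (3 / 10))
    (hh0 : 0 ≤ h) (hh1 : h ≤ (3 / 4)) : Good par2 w h where
  hk := by
    simp only [kk, par2]
    nlinarith [mul_le_mul_of_nonneg_left hw0 (show (0 : ℝ) ≤ 0 + (51 / 50) * h by linarith)]
  hk0 := by simp only [kk, par2]; linarith
  hk1 := by simp only [kk, par2]; linarith
  hτ := by simp only [par2]; norm_num
  hQ := by simp only [qQ, c4, par2]; norm_num
  hX := by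
    exact qX2_0 w h hw hw0 hw1 hh0 hh1
  hI := by
    exact qInner2_0 w h hw hw0 hw1 hh0 hh1
  hD := by
    exact qDet2_0 w h hw hw0 hw1 hh0 hh1
  hP := by
    exact qP2_0 w h hw hw0 hw1 hh0 hh1
  hS := by
    exact qS2_0 w h hw hw0 hw1 hh0 hh1
  hT := by
    exact qT2_0 w h hw hw0 hw1 hh0 hh1

/-- The parameters of range 3. -/
noncomputable def par3 : Par :=
  ⟨(51 / 50), (3 / 500), (97 / 1000), (-259 / 1000), (-681 / 1000), (-23 / 500), (349 / 1000), (-49 / 500), (273 / 1000)⟩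

theorem qX3_0 (w h : ℝ) (hw : 0 < w) (hw0 : (3 / 100) ≤ w) (hw1 : w ≤ (3 / 10))
    (hh0 : (3 / 4) ≤ h) (hh1 : h ≤ (9 / 10)) : 0 < qX par3 h := by
  have e : ∀ u u' v v' : ℝ, u = (w - (3 / 100)) / (27 / 100) → u' = 1 - u →
      v = (h - (3 / 4)) / (3 / 20) → v' = 1 - v → qX par3 h = ((1 / 10000000000) + (
        ((832264999 / 10000000000) * v' ^ 2 + (574459999 / 5000000000) * v ^ 1 * v' ^ 1
          + (258132499 / 10000000000) * v ^ 2))) := by
    rintro u u' v v' rfl rfl rfl rfl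
    simp only [qX, qInner, qDet, qP, qQ, qS, qT, qR, qM, qV, qW, qZ, c1, c2, c3, c4, kk, gam, par3]
    ring
  obtain ⟨u, hu0, hu⟩ : ∃ u : ℝ, 0 ≤ u ∧ u = (w - (3 / 100)) / (27 / 100) :=
    ⟨_, div_nonneg (by linarith) (by norm_num), rfl⟩
  obtain ⟨v, hv0, hv⟩ : ∃ v : ℝ, 0 ≤ v ∧ v = (h - (3 / 4)) / (3 / 20) :=
    ⟨_, div_nonneg (by linarith) (by norm_num), rfl⟩
  have hu1 : 0 ≤ 1 - u := by rw [hu, sub_nonneg, div_le_one (by norm_num)]; linarith
  have hv1 : 0 ≤ 1 - v := by rw [hv, sub_nonneg, div_le_one (by norm_num)]; linarith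
  rw [e u (1 - u) v (1 - v) hu rfl hv rfl]
  positivity

theorem qInner3_0 (w h : ℝ) (hw : 0 < w) (hw0 : (3 / 100) ≤ w) (hw1 : w ≤ (3 / 10))
    (hh0 : (3 / 4) ≤ h) (hh1 : h ≤ (9 / 10)) : 0 < qInner par3 h := by
  have e : ∀ u u' v v' : ℝ, u = (w - (3 / 100)) / (27 / 100) → u' = 1 - u →
      v = (h - (3 / 4)) / (3 / 20) → v' = 1 - v → qInner par3 h = ((1 / 10000000000) + (
        ((361415306351 / 16000000000000) * v' ^ 4
          + (305574817709 / 4000000000000) * v ^ 1 * v' ^ 3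
          + (364287406269 / 4000000000000) * v ^ 2 * v' ^ 2
          + (43683528083 / 1000000000000) * v ^ 3 * v' ^ 1 + (3191337733 / 500000000000) * v ^ 4))) := by
    rintro u u' v v' rfl rfl rfl rfl
    simp only [qX, qInner, qDet, qP, qQ, qS, qT, qR, qM, qV, qW, qZ, c1, c2, c3, c4, kk, gam, par3]
    ring
  obtain ⟨u, hu0, hu⟩ : ∃ u : ℝ, 0 ≤ u ∧ u = (w - (3 / 100)) / (27 / 100) :=
    ⟨_, div_nonneg (by linarith) (by norm_num), rfl⟩
  obtain ⟨v, hv0, hv⟩ : ∃ v : ℝ, 0 ≤ v ∧ v = (h - (3 / 4)) / (3 / 20) :=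
    ⟨_, div_nonneg (by linarith) (by norm_num), rfl⟩
  have hu1 : 0 ≤ 1 - u := by rw [hu, sub_nonneg, div_le_one (by norm_num)]; linarith
  have hv1 : 0 ≤ 1 - v := by rw [hv, sub_nonneg, div_le_one (by norm_num)]; linarith
  rw [e u (1 - u) v (1 - v) hu rfl hv rfl]
  positivity

theorem qDet3_0 (w h : ℝ) (hw : 0 < w) (hw0 : (3 / 100) ≤ w) (hw1 : w ≤ (3 / 10))
    (hh0 : (3 / 4) ≤ h) (hh1 : h ≤ (9 / 10)) : 0 < qDet par3 h := by
  have e : ∀ u u' v v' : ℝ, u = (w - (3 / 100)) / (27 / 100) → u' = 1 - u →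
      v = (h - (3 / 4)) / (3 / 20) → v' = 1 - v → qDet par3 h = ((1 / 10000000000) + (
        ((31076498945444361 / 32000000000000000000) * v' ^ 4
          + (53730935745254769 / 16000000000000000000) * v ^ 1 * v' ^ 3
          + (61198615154925981 / 16000000000000000000) * v ^ 2 * v' ^ 2
          + (6033476996693283 / 4000000000000000000) * v ^ 3 * v' ^ 1
          + (25428617111883 / 400000000000000000) * v ^ 4))) := by
    rintro u u' v v' rfl rfl rfl rfl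
    simp only [qX, qInner, qDet, qP, qQ, qS, qT, qR, qM, qV, qW, qZ, c1, c2, c3, c4, kk, gam, par3]
    ring
  obtain ⟨u, hu0, hu⟩ : ∃ u : ℝ, 0 ≤ u ∧ u = (w - (3 / 100)) / (27 / 100) :=
    ⟨_, div_nonneg (by linarith) (by norm_num), rfl⟩
  obtain ⟨v, hv0, hv⟩ : ∃ v : ℝ, 0 ≤ v ∧ v = (h - (3 / 4)) / (3 / 20) :=
    ⟨_, div_nonneg (by linarith) (by norm_num), rfl⟩
  have hu1 : 0 ≤ 1 - u := by rw [hu, sub_nonneg, div_le_one (by norm_num)]; linarith
  have hv1 : 0 ≤ 1 - v := by rw [hv, sub_nonneg, div_le_one (by norm_num)]; linarith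
  rw [e u (1 - u) v (1 - v) hu rfl hv rfl]
  positivity

theorem qP3_0 (w h : ℝ) (hw : 0 < w) (hw0 : (3 / 100) ≤ w) (hw1 : w ≤ (3 / 10))
    (hh0 : (3 / 4) ≤ h) (hh1 : h ≤ (9 / 10)) : 0 < qP par3 h := by
  have e : ∀ u u' v v' : ℝ, u = (w - (3 / 100)) / (27 / 100) → u' = 1 - u →
      v = (h - (3 / 4)) / (3 / 20) → v' = 1 - v → qP par3 h = ((1 / 10000000000) + (
        ((16254999999 / 10000000000) * v' ^ 1 + (17784999999 / 10000000000) * v ^ 1))) := by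
    rintro u u' v v' rfl rfl rfl rfl
    simp only [qX, qInner, qDet, qP, qQ, qS, qT, qR, qM, qV, qW, qZ, c1, c2, c3, c4, kk, gam, par3]
    ring
  obtain ⟨u, hu0, hu⟩ : ∃ u : ℝ, 0 ≤ u ∧ u = (w - (3 / 100)) / (27 / 100) :=
    ⟨_, div_nonneg (by linarith) (by norm_num), rfl⟩
  obtain ⟨v, hv0, hv⟩ : ∃ v : ℝ, 0 ≤ v ∧ v = (h - (3 / 4)) / (3 / 20) :=
    ⟨_, div_nonneg (by linarith) (by norm_num), rfl⟩
  have hu1 : 0 ≤ 1 - u := by rw [hu, sub_nonneg, div_le_one (by norm_num)]; linarith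
  have hv1 : 0 ≤ 1 - v := by rw [hv, sub_nonneg, div_le_one (by norm_num)]; linarith
  rw [e u (1 - u) v (1 - v) hu rfl hv rfl]
  positivity

theorem qS3_0 (w h : ℝ) (hw : 0 < w) (hw0 : (3 / 100) ≤ w) (hw1 : w ≤ (3 / 10))
    (hh0 : (3 / 4) ≤ h) (hh1 : h ≤ (9 / 10)) : 0 < qS par3 w h := by
  have e : ∀ u u' v v' : ℝ, u = (w - (3 / 100)) / (27 / 100) → u' = 1 - u →
      v = (h - (3 / 4)) / (3 / 20) → v' = 1 - v → qS par3 w h = ((1 / 10000000000) + (
        u' ^ 4 * ((739601346223921 / 10000000000000000) * v' ^ 2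
          + (1355187629910803 / 10000000000000000) * v ^ 1 * v' ^ 1
          + (2385681761895079 / 40000000000000000) * v ^ 2)
        + u ^ 1 * u' ^ 3 * ((1125144321400511 / 5000000000000000) * v' ^ 2
          + (7967372990635507 / 20000000000000000) * v ^ 1 * v' ^ 1
          + (829788164278031 / 5000000000000000) * v ^ 2)
        + u ^ 2 * u' ^ 2 * ((11922721739400759 / 40000000000000000) * v' ^ 2
          + (5137992163906473 / 10000000000000000) * v ^ 1 * v' ^ 1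
          + (1021762748156853 / 5000000000000000) * v ^ 2)
        + u ^ 3 * u' ^ 1 * ((366532612452059 / 2000000000000000) * v' ^ 2
          + (308132223572621 / 1000000000000000) * v ^ 1 * v' ^ 1
          + (29255476121803 / 250000000000000) * v ^ 2)
        + u ^ 4 * ((16577594415439 / 400000000000000) * v' ^ 2
          + (6752285494583 / 100000000000000) * v ^ 1 * v' ^ 1
          + (2408570873551 / 100000000000000) * v ^ 2))) := by
    rintro u u' v v' rfl rfl rfl rfl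
    simp only [qX, qInner, qDet, qP, qQ, qS, qT, qR, qM, qV, qW, qZ, c1, c2, c3, c4, kk, gam, par3]
    ring
  obtain ⟨u, hu0, hu⟩ : ∃ u : ℝ, 0 ≤ u ∧ u = (w - (3 / 100)) / (27 / 100) :=
    ⟨_, div_nonneg (by linarith) (by norm_num), rfl⟩
  obtain ⟨v, hv0, hv⟩ : ∃ v : ℝ, 0 ≤ v ∧ v = (h - (3 / 4)) / (3 / 20) :=
    ⟨_, div_nonneg (by linarith) (by norm_num), rfl⟩
  have hu1 : 0 ≤ 1 - u := by rw [hu, sub_nonneg, div_le_one (by norm_num)]; linarith
  have hv1 : 0 ≤ 1 - v := by rw [hv, sub_nonneg, div_le_one (by norm_num)]; linarith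
  rw [e u (1 - u) v (1 - v) hu rfl hv rfl]
  positivity

theorem qT3_0 (w h : ℝ) (hw : 0 < w) (hw0 : (3 / 100) ≤ w) (hw1 : w ≤ (3 / 10))
    (hh0 : (3 / 4) ≤ h) (hh1 : h ≤ (33 / 40)) : 0 < qT par3 w h := by
  have e : ∀ u u' v v' : ℝ, u = (w - (3 / 100)) / (27 / 100) → u' = 1 - u →
      v = (h - (3 / 4)) / (3 / 40) → v' = 1 - v → qT par3 w h = ((1 / 10000000000) + (
        u' ^ 3 * ((706169291761 / 80000000000000) * v' ^ 2
          + (673502477473 / 40000000000000) * v ^ 1 * v' ^ 1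
          + (127492132637 / 16000000000000) * v ^ 2)
        + u ^ 1 * u' ^ 2 * ((1118412911463 / 40000000000000) * v' ^ 2
          + (101778388473 / 2500000000000) * v ^ 1 * v' ^ 1
          + (97958260821 / 8000000000000) * v ^ 2)
        + u ^ 2 * u' ^ 1 * ((229839065691 / 4000000000000) * v' ^ 2
          + (180782985363 / 2000000000000) * v ^ 1 * v' ^ 1
          + (25636631007 / 800000000000) * v ^ 2)
        + u ^ 3 * ((10729025393 / 400000000000) * v' ^ 2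
          + (133452761 / 3125000000) * v ^ 1 * v' ^ 1 + (1236835603 / 80000000000) * v ^ 2))) := by
    rintro u u' v v' rfl rfl rfl rfl
    simp only [qX, qInner, qDet, qP, qQ, qS, qT, qR, qM, qV, qW, qZ, c1, c2, c3, c4, kk, gam, par3]
    ring
  obtain ⟨u, hu0, hu⟩ : ∃ u : ℝ, 0 ≤ u ∧ u = (w - (3 / 100)) / (27 / 100) :=
    ⟨_, div_nonneg (by linarith) (by norm_num), rfl⟩
  obtain ⟨v, hv0, hv⟩ : ∃ v : ℝ, 0 ≤ v ∧ v = (h - (3 / 4)) / (3 / 40) :=
    ⟨_, div_nonneg (by linarith) (by norm_num), rfl⟩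
  have hu1 : 0 ≤ 1 - u := by rw [hu, sub_nonneg, div_le_one (by norm_num)]; linarith
  have hv1 : 0 ≤ 1 - v := by rw [hv, sub_nonneg, div_le_one (by norm_num)]; linarith
  rw [e u (1 - u) v (1 - v) hu rfl hv rfl]
  positivity

theorem qT3_1 (w h : ℝ) (hw : 0 < w) (hw0 : (3 / 100) ≤ w) (hw1 : w ≤ (33 / 200))
    (hh0 : (33 / 40) ≤ h) (hh1 : h ≤ (9 / 10)) : 0 < qT par3 w h := by
  have e : ∀ u u' v v' : ℝ, u = (w - (3 / 100)) / (27 / 200) → u' = 1 - u →
      v = (h - (33 / 40)) / (3 / 40) → v' = 1 - v → qT par3 w h = ((1 / 10000000000) + (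
        u' ^ 3 * ((127492132637 / 16000000000000) * v' ^ 2
          + (601418848897 / 40000000000000) * v ^ 1 * v' ^ 1
          + (562002034609 / 80000000000000) * v ^ 2)
        + u ^ 1 * u' ^ 2 * ((578392919553 / 32000000000000) * v' ^ 2
          + (2134967547543 / 80000000000000) * v ^ 1 * v' ^ 1
          + (1327345497321 / 160000000000000) * v ^ 2)
        + u ^ 2 * u' ^ 1 * ((257408412267 / 12800000000000) * v' ^ 2
          + (795469008507 / 32000000000000) * v ^ 1 * v' ^ 1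
          + (271495955679 / 64000000000000) * v ^ 2)
        + u ^ 3 * ((1083508395019 / 128000000000000) * v' ^ 2
          + (3209272209089 / 320000000000000) * v ^ 1 * v' ^ 1
          + (852502443083 / 640000000000000) * v ^ 2))) := by
    rintro u u' v v' rfl rfl rfl rfl
    simp only [qX, qInner, qDet, qP, qQ, qS, qT, qR, qM, qV, qW, qZ, c1, c2, c3, c4, kk, gam, par3]
    ring
  obtain ⟨u, hu0, hu⟩ : ∃ u : ℝ, 0 ≤ u ∧ u = (w - (3 / 100)) / (27 / 200) :=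
    ⟨_, div_nonneg (by linarith) (by norm_num), rfl⟩
  obtain ⟨v, hv0, hv⟩ : ∃ v : ℝ, 0 ≤ v ∧ v = (h - (33 / 40)) / (3 / 40) :=
    ⟨_, div_nonneg (by linarith) (by norm_num), rfl⟩
  have hu1 : 0 ≤ 1 - u := by rw [hu, sub_nonneg, div_le_one (by norm_num)]; linarith
  have hv1 : 0 ≤ 1 - v := by rw [hv, sub_nonneg, div_le_one (by norm_num)]; linarith
  rw [e u (1 - u) v (1 - v) hu rfl hv rfl]
  positivity

theorem qT3_2 (w h : ℝ) (hw : 0 < w) (hw0 : (33 / 200) ≤ w) (hw1 : w ≤ (3 / 10))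
    (hh0 : (33 / 40) ≤ h) (hh1 : h ≤ (9 / 10)) : 0 < qT par3 w h := by
  have e : ∀ u u' v v' : ℝ, u = (w - (33 / 200)) / (27 / 200) → u' = 1 - u →
      v = (h - (33 / 40)) / (3 / 40) → v' = 1 - v → qT par3 w h = ((1 / 10000000000) + (
        u' ^ 3 * ((1083508395019 / 128000000000000) * v' ^ 2
          + (3209272209089 / 320000000000000) * v ^ 1 * v' ^ 1
          + (852502443083 / 640000000000000) * v ^ 2)
        + u ^ 1 * u' ^ 2 * ((981741561861 / 32000000000000) * v' ^ 2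
          + (1412617896183 / 40000000000000) * v ^ 1 * v' ^ 1
          + (600013775427 / 160000000000000) * v ^ 2)
        + u ^ 2 * u' ^ 1 * ((62741699097 / 1600000000000) * v' ^ 2
          + (190404704487 / 4000000000000) * v ^ 1 * v' ^ 1
          + (58494663489 / 8000000000000) * v ^ 2)
        + u ^ 3 * ((1236835603 / 80000000000) * v' ^ 2
          + (1913689663 / 100000000000) * v ^ 1 * v' ^ 1 + (1301830637 / 400000000000) * v ^ 2))) := by
    rintro u u' v v' rfl rfl rfl rfl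
    simp only [qX, qInner, qDet, qP, qQ, qS, qT, qR, qM, qV, qW, qZ, c1, c2, c3, c4, kk, gam, par3]
    ring
  obtain ⟨u, hu0, hu⟩ : ∃ u : ℝ, 0 ≤ u ∧ u = (w - (33 / 200)) / (27 / 200) :=
    ⟨_, div_nonneg (by linarith) (by norm_num), rfl⟩
  obtain ⟨v, hv0, hv⟩ : ∃ v : ℝ, 0 ≤ v ∧ v = (h - (33 / 40)) / (3 / 40) :=
    ⟨_, div_nonneg (by linarith) (by norm_num), rfl⟩
  have hu1 : 0 ≤ 1 - u := by rw [hu, sub_nonneg, div_le_one (by norm_num)]; linarith
  have hv1 : 0 ≤ 1 - v := by rw [hv, sub_nonneg, div_le_one (by norm_num)]; linarith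
  rw [e u (1 - u) v (1 - v) hu rfl hv rfl]
  positivity

theorem good3 (w h : ℝ) (hw : 0 < w) (hw0 : (3 / 100) ≤ w) (hw1 : w ≤ (3 / 10))
    (hh0 : (3 / 4) ≤ h) (hh1 : h ≤ (9 / 10)) : Good par3 w h where
  hk := by
    simp only [kk, par3]
    nlinarith [mul_le_mul_of_nonneg_left hw0 (show (0 : ℝ) ≤ (3 / 500) + (51 / 50) * h by linarith)]
  hk0 := by simp only [kk, par3]; linarith
  hk1 := by simp only [kk, par3]; linarith
  hτ := by simp only [par3]; norm_num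
  hQ := by simp only [qQ, c4, par3]; norm_num
  hX := by
    exact qX3_0 w h hw hw0 hw1 hh0 hh1
  hI := by
    exact qInner3_0 w h hw hw0 hw1 hh0 hh1
  hD := by
    exact qDet3_0 w h hw hw0 hw1 hh0 hh1
  hP := by
    exact qP3_0 w h hw hw0 hw1 hh0 hh1
  hS := by
    exact qS3_0 w h hw hw0 hw1 hh0 hh1
  hT := by
    rcases le_total h (33 / 40) with e4 | e4
    · exact qT3_0 w h hw hw0 hw1 hh0 e4
    · rcases le_total w (33 / 200) with e6 | e6
      · exact qT3_1 w h hw hw0 e6 e4 hh1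
      · exact qT3_2 w h hw e6 hw1 e4 hh1

/-- The parameters of range 4. -/
noncomputable def par4 : Par :=
  ⟨(389 / 500), 0, (81 / 500), (-551 / 1000), (-13 / 200), (-24 / 125), (19 / 100), (-19 / 500), (33 / 125)⟩

theorem qX4_0 (w h : ℝ) (hw : 0 < w) (hw0 : (3 / 10) ≤ w) (hw1 : w ≤ (1 / 2))
    (hh0 : 0 ≤ h) (hh1 : h ≤ (3 / 4)) : 0 < qX par4 h := by
  have e : ∀ u u' v v' : ℝ, u = (w - (3 / 10)) / (1 / 5) → u' = 1 - u →
      v = (h - 0) / (3 / 4) → v' = 1 - v → qX par4 h = ((1 / 10000000000) + (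
        ((1493169999 / 10000000000) * v' ^ 2 + (1729487499 / 5000000000) * v ^ 1 * v' ^ 1
          + (557312187 / 5000000000) * v ^ 2))) := by
    rintro u u' v v' rfl rfl rfl rfl
    simp only [qX, qInner, qDet, qP, qQ, qS, qT, qR, qM, qV, qW, qZ, c1, c2, c3, c4, kk, gam, par4]
    ring
  obtain ⟨u, hu0, hu⟩ : ∃ u : ℝ, 0 ≤ u ∧ u = (w - (3 / 10)) / (1 / 5) :=
    ⟨_, div_nonneg (by linarith) (by norm_num), rfl⟩
  obtain ⟨v, hv0, hv⟩ : ∃ v : ℝ, 0 ≤ v ∧ v = (h - 0) / (3 / 4) :=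
    ⟨_, div_nonneg (by linarith) (by norm_num), rfl⟩
  have hu1 : 0 ≤ 1 - u := by rw [hu, sub_nonneg, div_le_one (by norm_num)]; linarith
  have hv1 : 0 ≤ 1 - v := by rw [hv, sub_nonneg, div_le_one (by norm_num)]; linarith
  rw [e u (1 - u) v (1 - v) hu rfl hv rfl]
  positivity

theorem qInner4_0 (w h : ℝ) (hw : 0 < w) (hw0 : (3 / 10) ≤ w) (hw1 : w ≤ (1 / 2))
    (hh0 : 0 ≤ h) (hh1 : h ≤ (3 / 4)) : 0 < qInner par4 h := by
  have e : ∀ u u' v v' : ℝ, u = (w - (3 / 10)) / (1 / 5) → u' = 1 - u →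
      v = (h - 0) / (3 / 4) → v' = 1 - v → qInner par4 h = ((1 / 10000000000) + (
        ((71865310367 / 4000000000000) * v' ^ 4
          + (574407716591 / 4000000000000) * v ^ 1 * v' ^ 3
          + (1915722357837 / 8000000000000) * v ^ 2 * v' ^ 2
          + (4737651917851 / 32000000000000) * v ^ 3 * v' ^ 1
          + (6906072242039 / 256000000000000) * v ^ 4))) := by
    rintro u u' v v' rfl rfl rfl rfl
    simp only [qX, qInner, qDet, qP, qQ, qS, qT, qR, qM, qV, qW, qZ, c1, c2, c3, c4, kk, gam, par4]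
    ring
  obtain ⟨u, hu0, hu⟩ : ∃ u : ℝ, 0 ≤ u ∧ u = (w - (3 / 10)) / (1 / 5) :=
    ⟨_, div_nonneg (by linarith) (by norm_num), rfl⟩
  obtain ⟨v, hv0, hv⟩ : ∃ v : ℝ, 0 ≤ v ∧ v = (h - 0) / (3 / 4) :=
    ⟨_, div_nonneg (by linarith) (by norm_num), rfl⟩
  have hu1 : 0 ≤ 1 - u := by rw [hu, sub_nonneg, div_le_one (by norm_num)]; linarith
  have hv1 : 0 ≤ 1 - v := by rw [hv, sub_nonneg, div_le_one (by norm_num)]; linarith
  rw [e u (1 - u) v (1 - v) hu rfl hv rfl]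
  positivity

theorem qDet4_0 (w h : ℝ) (hw : 0 < w) (hw0 : (3 / 10) ≤ w) (hw1 : w ≤ (1 / 2))
    (hh0 : 0 ≤ h) (hh1 : h ≤ (3 / 4)) : 0 < qDet par4 h := by
  have e : ∀ u u' v v' : ℝ, u = (w - (3 / 10)) / (1 / 5) → u' = 1 - u →
      v = (h - 0) / (3 / 4) → v' = 1 - v → qDet par4 h = ((1 / 10000000000) + (
        ((1728646282046993 / 8000000000000000000) * v' ^ 4
          + (54911879283924419 / 8000000000000000000) * v ^ 1 * v' ^ 3
          + (230389606485197871 / 16000000000000000000) * v ^ 2 * v' ^ 2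
          + (492140510170940851 / 64000000000000000000) * v ^ 3 * v' ^ 1
          + (3129226403326457 / 20480000000000000000) * v ^ 4))) := by
    rintro u u' v v' rfl rfl rfl rfl
    simp only [qX, qInner, qDet, qP, qQ, qS, qT, qR, qM, qV, qW, qZ, c1, c2, c3, c4, kk, gam, par4]
    ring
  obtain ⟨u, hu0, hu⟩ : ∃ u : ℝ, 0 ≤ u ∧ u = (w - (3 / 10)) / (1 / 5) :=
    ⟨_, div_nonneg (by linarith) (by norm_num), rfl⟩
  obtain ⟨v, hv0, hv⟩ : ∃ v : ℝ, 0 ≤ v ∧ v = (h - 0) / (3 / 4) :=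
    ⟨_, div_nonneg (by linarith) (by norm_num), rfl⟩
  have hu1 : 0 ≤ 1 - u := by rw [hu, sub_nonneg, div_le_one (by norm_num)]; linarith
  have hv1 : 0 ≤ 1 - v := by rw [hv, sub_nonneg, div_le_one (by norm_num)]; linarith
  rw [e u (1 - u) v (1 - v) hu rfl hv rfl]
  positivity

theorem qP4_0 (w h : ℝ) (hw : 0 < w) (hw0 : (3 / 10) ≤ w) (hw1 : w ≤ (1 / 2))
    (hh0 : 0 ≤ h) (hh1 : h ≤ (3 / 4)) : 0 < qP par4 h := by
  have e : ∀ u u' v v' : ℝ, u = (w - (3 / 10)) / (1 / 5) → u' = 1 - u →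
      v = (h - 0) / (3 / 4) → v' = 1 - v → qP par4 h = ((1 / 10000000000) + (
        ((7569999999 / 10000000000) * v' ^ 1 + (13404999999 / 10000000000) * v ^ 1))) := by
    rintro u u' v v' rfl rfl rfl rfl
    simp only [qX, qInner, qDet, qP, qQ, qS, qT, qR, qM, qV, qW, qZ, c1, c2, c3, c4, kk, gam, par4]
    ring
  obtain ⟨u, hu0, hu⟩ : ∃ u : ℝ, 0 ≤ u ∧ u = (w - (3 / 10)) / (1 / 5) :=
    ⟨_, div_nonneg (by linarith) (by norm_num), rfl⟩
  obtain ⟨v, hv0, hv⟩ : ∃ v : ℝ, 0 ≤ v ∧ v = (h - 0) / (3 / 4) :=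
    ⟨_, div_nonneg (by linarith) (by norm_num), rfl⟩
  have hu1 : 0 ≤ 1 - u := by rw [hu, sub_nonneg, div_le_one (by norm_num)]; linarith
  have hv1 : 0 ≤ 1 - v := by rw [hv, sub_nonneg, div_le_one (by norm_num)]; linarith
  rw [e u (1 - u) v (1 - v) hu rfl hv rfl]
  positivity

theorem qS4_0 (w h : ℝ) (hw : 0 < w) (hw0 : (3 / 10) ≤ w) (hw1 : w ≤ (1 / 2))
    (hh0 : 0 ≤ h) (hh1 : h ≤ (3 / 4)) : 0 < qS par4 w h := by
  have e : ∀ u u' v v' : ℝ, u = (w - (3 / 10)) / (1 / 5) → u' = 1 - u →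
      v = (h - 0) / (3 / 4) → v' = 1 - v → qS par4 w h = ((1 / 10000000000) + (
        u' ^ 4 * ((9862844983 / 160000000000) * v' ^ 2
          + (74529052099 / 500000000000) * v ^ 1 * v' ^ 1
          + (2149700573387 / 50000000000000) * v ^ 2)
        + u ^ 1 * u' ^ 3 * ((8819156099 / 40000000000) * v' ^ 2
          + (132957734827 / 250000000000) * v ^ 1 * v' ^ 1
          + (1753300925251 / 12500000000000) * v ^ 2)
        + u ^ 2 * u' ^ 2 * ((23344390177 / 80000000000) * v' ^ 2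
          + (69424853191 / 100000000000) * v ^ 1 * v' ^ 1
          + (3911265172961 / 25000000000000) * v ^ 2)
        + u ^ 3 * u' ^ 1 * ((6770187359 / 40000000000) * v' ^ 2
          + (122544737 / 312500000) * v ^ 1 * v' ^ 1 + (168926330399 / 2500000000000) * v ^ 2)
        + u ^ 4 * ((5811119359 / 160000000000) * v' ^ 2
          + (404543569 / 5000000000) * v ^ 1 * v' ^ 1 + (16650588587 / 2000000000000) * v ^ 2))) := by
    rintro u u' v v' rfl rfl rfl rfl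
    simp only [qX, qInner, qDet, qP, qQ, qS, qT, qR, qM, qV, qW, qZ, c1, c2, c3, c4, kk, gam, par4]
    ring
  obtain ⟨u, hu0, hu⟩ : ∃ u : ℝ, 0 ≤ u ∧ u = (w - (3 / 10)) / (1 / 5) :=
    ⟨_, div_nonneg (by linarith) (by norm_num), rfl⟩
  obtain ⟨v, hv0, hv⟩ : ∃ v : ℝ, 0 ≤ v ∧ v = (h - 0) / (3 / 4) :=
    ⟨_, div_nonneg (by linarith) (by norm_num), rfl⟩
  have hu1 : 0 ≤ 1 - u := by rw [hu, sub_nonneg, div_le_one (by norm_num)]; linarith
  have hv1 : 0 ≤ 1 - v := by rw [hv, sub_nonneg, div_le_one (by norm_num)]; linarith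
  rw [e u (1 - u) v (1 - v) hu rfl hv rfl]
  positivity

theorem qT4_0 (w h : ℝ) (hw : 0 < w) (hw0 : (3 / 10) ≤ w) (hw1 : w ≤ (1 / 2))
    (hh0 : 0 ≤ h) (hh1 : h ≤ (3 / 4)) : 0 < qT par4 w h := by
  have e : ∀ u u' v v' : ℝ, u = (w - (3 / 10)) / (1 / 5) → u' = 1 - u →
      v = (h - 0) / (3 / 4) → v' = 1 - v → qT par4 w h = ((1 / 10000000000) + (
        u' ^ 3 * ((11247951097 / 80000000000) * v' ^ 2
          + (38018307749 / 200000000000) * v ^ 1 * v' ^ 1 + (2921860013 / 400000000000) * v ^ 2)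
        + u ^ 1 * u' ^ 2 * ((37245404901 / 80000000000) * v' ^ 2
          + (135133717809 / 200000000000) * v ^ 1 * v' ^ 1
          + (22165411113 / 400000000000) * v ^ 2)
        + u ^ 2 * u' ^ 1 * ((38507681851 / 80000000000) * v' ^ 2
          + (29157312979 / 40000000000) * v ^ 1 * v' ^ 1 + (5181944107 / 80000000000) * v ^ 2)
        + u ^ 3 * ((12793859367 / 80000000000) * v' ^ 2
          + (9897614607 / 40000000000) * v ^ 1 * v' ^ 1 + (1376369847 / 80000000000) * v ^ 2))) := by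
    rintro u u' v v' rfl rfl rfl rfl
    simp only [qX, qInner, qDet, qP, qQ, qS, qT, qR, qM, qV, qW, qZ, c1, c2, c3, c4, kk, gam, par4]
    ring
  obtain ⟨u, hu0, hu⟩ : ∃ u : ℝ, 0 ≤ u ∧ u = (w - (3 / 10)) / (1 / 5) :=
    ⟨_, div_nonneg (by linarith) (by norm_num), rfl⟩
  obtain ⟨v, hv0, hv⟩ : ∃ v : ℝ, 0 ≤ v ∧ v = (h - 0) / (3 / 4) :=
    ⟨_, div_nonneg (by linarith) (by norm_num), rfl⟩
  have hu1 : 0 ≤ 1 - u := by rw [hu, sub_nonneg, div_le_one (by norm_num)]; linarith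
  have hv1 : 0 ≤ 1 - v := by rw [hv, sub_nonneg, div_le_one (by norm_num)]; linarith
  rw [e u (1 - u) v (1 - v) hu rfl hv rfl]
  positivity

theorem good4 (w h : ℝ) (hw : 0 < w) (hw0 : (3 / 10) ≤ w) (hw1 : w ≤ (1 / 2))
    (hh0 : 0 ≤ h) (hh1 : h ≤ (3 / 4)) : Good par4 w h where
  hk := by
    simp only [kk, par4]
    nlinarith [mul_le_mul_of_nonneg_left hw0 (show (0 : ℝ) ≤ 0 + (389 / 500) * h by linarith)]
  hk0 := by simp only [kk, par4]; linarith
  hk1 := by simp only [kk, par4]; linarith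
  hτ := by simp only [par4]; norm_num
  hQ := by simp only [qQ, c4, par4]; norm_num
  hX := by
    exact qX4_0 w h hw hw0 hw1 hh0 hh1
  hI := by
    exact qInner4_0 w h hw hw0 hw1 hh0 hh1
  hD := by
    exact qDet4_0 w h hw hw0 hw1 hh0 hh1
  hP := by
    exact qP4_0 w h hw hw0 hw1 hh0 hh1
  hS := by
    exact qS4_0 w h hw hw0 hw1 hh0 hh1
  hT := by
    exact qT4_0 w h hw hw0 hw1 hh0 hh1

/-- The parameters of range 5. -/
noncomputable def par5 : Par :=
  ⟨(547 / 1000), (397 / 1000), (133 / 1000), (-57 / 200), (-83 / 125), (-27 / 200), (3 / 8), (-41 / 500), (131 / 500)⟩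

theorem qX5_0 (w h : ℝ) (hw : 0 < w) (hw0 : (3 / 10) ≤ w) (hw1 : w ≤ (1 / 2))
    (hh0 : (3 / 4) ≤ h) (hh1 : h ≤ (9 / 10)) : 0 < qX par5 h := by
  have e : ∀ u u' v v' : ℝ, u = (w - (3 / 10)) / (1 / 5) → u' = 1 - u →
      v = (h - (3 / 4)) / (3 / 20) → v' = 1 - v → qX par5 h = ((1 / 10000000000) + (
        ((2440089371 / 40000000000) * v' ^ 2 + (943433623 / 10000000000) * v ^ 1 * v' ^ 1
          + (158290387 / 5000000000) * v ^ 2))) := by
    rintro u u' v v' rfl rfl rfl rfl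
    simp only [qX, qInner, qDet, qP, qQ, qS, qT, qR, qM, qV, qW, qZ, c1, c2, c3, c4, kk, gam, par5]
    ring
  obtain ⟨u, hu0, hu⟩ : ∃ u : ℝ, 0 ≤ u ∧ u = (w - (3 / 10)) / (1 / 5) :=
    ⟨_, div_nonneg (by linarith) (by norm_num), rfl⟩
  obtain ⟨v, hv0, hv⟩ : ∃ v : ℝ, 0 ≤ v ∧ v = (h - (3 / 4)) / (3 / 20) :=
    ⟨_, div_nonneg (by linarith) (by norm_num), rfl⟩
  have hu1 : 0 ≤ 1 - u := by rw [hu, sub_nonneg, div_le_one (by norm_num)]; linarith
  have hv1 : 0 ≤ 1 - v := by rw [hv, sub_nonneg, div_le_one (by norm_num)]; linarith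
  rw [e u (1 - u) v (1 - v) hu rfl hv rfl]
  positivity

theorem qInner5_0 (w h : ℝ) (hw : 0 < w) (hw0 : (3 / 10) ≤ w) (hw1 : w ≤ (1 / 2))
    (hh0 : (3 / 4) ≤ h) (hh1 : h ≤ (9 / 10)) : 0 < qInner par5 h := by
  have e : ∀ u u' v v' : ℝ, u = (w - (3 / 10)) / (1 / 5) → u' = 1 - u →
      v = (h - (3 / 4)) / (3 / 20) → v' = 1 - v → qInner par5 h = ((1 / 10000000000) + (
        ((75409998152959 / 4096000000000000) * v' ^ 4
          + (167843530213699 / 2560000000000000) * v ^ 1 * v' ^ 3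
          + (1093948955778567 / 12800000000000000) * v ^ 2 * v' ^ 2
          + (766875661365529 / 16000000000000000) * v ^ 3 * v' ^ 1
          + (1538459026424419 / 160000000000000000) * v ^ 4))) := by
    rintro u u' v v' rfl rfl rfl rfl
    simp only [qX, qInner, qDet, qP, qQ, qS, qT, qR, qM, qV, qW, qZ, c1, c2, c3, c4, kk, gam, par5]
    ring
  obtain ⟨u, hu0, hu⟩ : ∃ u : ℝ, 0 ≤ u ∧ u = (w - (3 / 10)) / (1 / 5) :=
    ⟨_, div_nonneg (by linarith) (by norm_num), rfl⟩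
  obtain ⟨v, hv0, hv⟩ : ∃ v : ℝ, 0 ≤ v ∧ v = (h - (3 / 4)) / (3 / 20) :=
    ⟨_, div_nonneg (by linarith) (by norm_num), rfl⟩
  have hu1 : 0 ≤ 1 - u := by rw [hu, sub_nonneg, div_le_one (by norm_num)]; linarith
  have hv1 : 0 ≤ 1 - v := by rw [hv, sub_nonneg, div_le_one (by norm_num)]; linarith
  rw [e u (1 - u) v (1 - v) hu rfl hv rfl]
  positivity

theorem qDet5_0 (w h : ℝ) (hw : 0 < w) (hw0 : (3 / 10) ≤ w) (hw1 : w ≤ (1 / 2))
    (hh0 : (3 / 4) ≤ h) (hh1 : h ≤ (9 / 10)) : 0 < qDet par5 h := by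
  have e : ∀ u u' v v' : ℝ, u = (w - (3 / 10)) / (1 / 5) → u' = 1 - u →
      v = (h - (3 / 4)) / (3 / 20) → v' = 1 - v → qDet par5 h = ((1 / 10000000000) + (
        ((4403181129593958361 / 16384000000000000000000) * v' ^ 4
          + (10643791080017982271 / 10240000000000000000000) * v ^ 1 * v' ^ 3
          + (68758821536294571843 / 51200000000000000000000) * v ^ 2 * v' ^ 2
          + (41326582811627182591 / 64000000000000000000000) * v ^ 3 * v' ^ 1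
          + (46677830379872118601 / 640000000000000000000000) * v ^ 4))) := by
    rintro u u' v v' rfl rfl rfl rfl
    simp only [qX, qInner, qDet, qP, qQ, qS, qT, qR, qM, qV, qW, qZ, c1, c2, c3, c4, kk, gam, par5]
    ring
  obtain ⟨u, hu0, hu⟩ : ∃ u : ℝ, 0 ≤ u ∧ u = (w - (3 / 10)) / (1 / 5) :=
    ⟨_, div_nonneg (by linarith) (by norm_num), rfl⟩
  obtain ⟨v, hv0, hv⟩ : ∃ v : ℝ, 0 ≤ v ∧ v = (h - (3 / 4)) / (3 / 20) :=
    ⟨_, div_nonneg (by linarith) (by norm_num), rfl⟩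
  have hu1 : 0 ≤ 1 - u := by rw [hu, sub_nonneg, div_le_one (by norm_num)]; linarith
  have hv1 : 0 ≤ 1 - v := by rw [hv, sub_nonneg, div_le_one (by norm_num)]; linarith
  rw [e u (1 - u) v (1 - v) hu rfl hv rfl]
  positivity

theorem qP5_0 (w h : ℝ) (hw : 0 < w) (hw0 : (3 / 10) ≤ w) (hw1 : w ≤ (1 / 2))
    (hh0 : (3 / 4) ≤ h) (hh1 : h ≤ (9 / 10)) : 0 < qP par5 h := by
  have e : ∀ u u' v v' : ℝ, u = (w - (3 / 10)) / (1 / 5) → u' = 1 - u →
      v = (h - (3 / 4)) / (3 / 20) → v' = 1 - v → qP par5 h = ((1 / 10000000000) + (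
        ((16077499999 / 10000000000) * v' ^ 1 + (16897999999 / 10000000000) * v ^ 1))) := by
    rintro u u' v v' rfl rfl rfl rfl
    simp only [qX, qInner, qDet, qP, qQ, qS, qT, qR, qM, qV, qW, qZ, c1, c2, c3, c4, kk, gam, par5]
    ring
  obtain ⟨u, hu0, hu⟩ : ∃ u : ℝ, 0 ≤ u ∧ u = (w - (3 / 10)) / (1 / 5) :=
    ⟨_, div_nonneg (by linarith) (by norm_num), rfl⟩
  obtain ⟨v, hv0, hv⟩ : ∃ v : ℝ, 0 ≤ v ∧ v = (h - (3 / 4)) / (3 / 20) :=
    ⟨_, div_nonneg (by linarith) (by norm_num), rfl⟩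
  have hu1 : 0 ≤ 1 - u := by rw [hu, sub_nonneg, div_le_one (by norm_num)]; linarith
  have hv1 : 0 ≤ 1 - v := by rw [hv, sub_nonneg, div_le_one (by norm_num)]; linarith
  rw [e u (1 - u) v (1 - v) hu rfl hv rfl]
  positivity

theorem qS5_0 (w h : ℝ) (hw : 0 < w) (hw0 : (3 / 10) ≤ w) (hw1 : w ≤ (1 / 2))
    (hh0 : (3 / 4) ≤ h) (hh1 : h ≤ (9 / 10)) : 0 < qS par5 w h := by
  have e : ∀ u u' v v' : ℝ, u = (w - (3 / 10)) / (1 / 5) → u' = 1 - u →
      v = (h - (3 / 4)) / (3 / 20) → v' = 1 - v → qS par5 w h = ((1 / 10000000000) + (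
        u' ^ 4 * ((76285551286551 / 1600000000000000) * v' ^ 2
          + (150975342492117 / 2000000000000000) * v ^ 1 * v' ^ 1
          + (256863331696239 / 10000000000000000) * v ^ 2)
        + u ^ 1 * u' ^ 3 * ((35116661330329 / 200000000000000) * v' ^ 2
          + (137987124715061 / 500000000000000) * v ^ 1 * v' ^ 1
          + (57863296782353 / 625000000000000) * v ^ 2)
        + u ^ 2 * u' ^ 2 * ((190367771804293 / 800000000000000) * v' ^ 2
          + (367996583133481 / 1000000000000000) * v ^ 1 * v' ^ 1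
          + (596500376740177 / 5000000000000000) * v ^ 2)
        + u ^ 3 * u' ^ 1 * ((5415033878287 / 40000000000000) * v' ^ 2
          + (20150666760383 / 100000000000000) * v ^ 1 * v' ^ 1
          + (7452038415659 / 125000000000000) * v ^ 2)
        + u ^ 4 * ((1712309468759 / 64000000000000) * v' ^ 2
          + (2948694741953 / 80000000000000) * v ^ 1 * v' ^ 1
          + (3453577346951 / 400000000000000) * v ^ 2))) := by
    rintro u u' v v' rfl rfl rfl rfl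
    simp only [qX, qInner, qDet, qP, qQ, qS, qT, qR, qM, qV, qW, qZ, c1, c2, c3, c4, kk, gam, par5]
    ring
  obtain ⟨u, hu0, hu⟩ : ∃ u : ℝ, 0 ≤ u ∧ u = (w - (3 / 10)) / (1 / 5) :=
    ⟨_, div_nonneg (by linarith) (by norm_num), rfl⟩
  obtain ⟨v, hv0, hv⟩ : ∃ v : ℝ, 0 ≤ v ∧ v = (h - (3 / 4)) / (3 / 20) :=
    ⟨_, div_nonneg (by linarith) (by norm_num), rfl⟩
  have hu1 : 0 ≤ 1 - u := by rw [hu, sub_nonneg, div_le_one (by norm_num)]; linarith
  have hv1 : 0 ≤ 1 - v := by rw [hv, sub_nonneg, div_le_one (by norm_num)]; linarith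
  rw [e u (1 - u) v (1 - v) hu rfl hv rfl]
  positivity

theorem qT5_0 (w h : ℝ) (hw : 0 < w) (hw0 : (3 / 10) ≤ w) (hw1 : w ≤ (1 / 2))
    (hh0 : (3 / 4) ≤ h) (hh1 : h ≤ (9 / 10)) : 0 < qT par5 w h := by
  have e : ∀ u u' v v' : ℝ, u = (w - (3 / 10)) / (1 / 5) → u' = 1 - u →
      v = (h - (3 / 4)) / (3 / 20) → v' = 1 - v → qT par5 w h = ((1 / 10000000000) + (
        u' ^ 3 * ((1408530063 / 40000000000) * v' ^ 2
          + (8366912193 / 200000000000) * v ^ 1 * v' ^ 1 + (493380939 / 100000000000) * v ^ 2)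
        + u ^ 1 * u' ^ 2 * ((244681671 / 2000000000) * v' ^ 2
          + (7986097257 / 50000000000) * v ^ 1 * v' ^ 1 + (779840241 / 25000000000) * v ^ 2)
        + u ^ 2 * u' ^ 1 * ((5611229123 / 40000000000) * v' ^ 2
          + (7755902329 / 40000000000) * v ^ 1 * v' ^ 1 + (926086603 / 20000000000) * v ^ 2)
        + u ^ 3 * ((969270473 / 20000000000) * v' ^ 2
          + (1324725451 / 20000000000) * v ^ 1 * v' ^ 1 + (149602489 / 10000000000) * v ^ 2))) := by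
    rintro u u' v v' rfl rfl rfl rfl
    simp only [qX, qInner, qDet, qP, qQ, qS, qT, qR, qM, qV, qW, qZ, c1, c2, c3, c4, kk, gam, par5]
    ring
  obtain ⟨u, hu0, hu⟩ : ∃ u : ℝ, 0 ≤ u ∧ u = (w - (3 / 10)) / (1 / 5) :=
    ⟨_, div_nonneg (by linarith) (by norm_num), rfl⟩
  obtain ⟨v, hv0, hv⟩ : ∃ v : ℝ, 0 ≤ v ∧ v = (h - (3 / 4)) / (3 / 20) :=
    ⟨_, div_nonneg (by linarith) (by norm_num), rfl⟩
  have hu1 : 0 ≤ 1 - u := by rw [hu, sub_nonneg, div_le_one (by norm_num)]; linarith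
  have hv1 : 0 ≤ 1 - v := by rw [hv, sub_nonneg, div_le_one (by norm_num)]; linarith
  rw [e u (1 - u) v (1 - v) hu rfl hv rfl]
  positivity

theorem good5 (w h : ℝ) (hw : 0 < w) (hw0 : (3 / 10) ≤ w) (hw1 : w ≤ (1 / 2))
    (hh0 : (3 / 4) ≤ h) (hh1 : h ≤ (9 / 10)) : Good par5 w h where
  hk := by
    simp only [kk, par5]
    nlinarith [mul_le_mul_of_nonneg_left hw0 (show (0 : ℝ) ≤ (397 / 1000) + (547 / 1000) * h by linarith)]
  hk0 := by simp only [kk, par5]; linarith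
  hk1 := by simp only [kk, par5]; linarith
  hτ := by simp only [par5]; norm_num
  hQ := by simp only [qQ, c4, par5]; norm_num
  hX := by
    exact qX5_0 w h hw hw0 hw1 hh0 hh1
  hI := by
    exact qInner5_0 w h hw hw0 hw1 hh0 hh1
  hD := by
    exact qDet5_0 w h hw hw0 hw1 hh0 hh1
  hP := by
    exact qP5_0 w h hw hw0 hw1 hh0 hh1
  hS := by
    exact qS5_0 w h hw hw0 hw1 hh0 hh1
  hT := by
    exact qT5_0 w h hw hw0 hw1 hh0 hh1

end Vale.Agent.P100.Four
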